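import Vale.Agent.P352Z.SG.Pot
import Vale.Agent.P352Z.R.NULL

/-!
# P352Z: rows TWOL, CUR and the overlaps of the potentials (helper40)
-/

set_option linter.all false

open MeasureTheory Measure Set Filter Topology
open scoped SchwartzMap ComplexConjugate NNReal ENNReal

namespace Vale.Agent.P352X.ZZ

open Vale.Agent.P352 Vale.Agent.P352.GF Vale.Agent.P352.BW Vale.Agent.P352.H496
open Vale.Agent.P352.H755
open Vale.Agent.P352.H246 (box In improveJ)
open UniformSpace (Completion)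
open Vale.Agent.P352X.Two

noncomputable section

variable {D : Type*} [NormedAddCommGroup D] [InnerProductSpace ℂ D] {c : Ctx D} {Q : Theory D}
  {N : Set V → VonNeumannAlgebra (Completion D)} {k : ℕ} {Sj : ℕ → Ix → Ix → Fld D}
  {Vj : ℕ → Ix → Fld D} {sg : ℕ → Fn → Completion D} {f : Fn}

/-- the potentials as tempered distributions -/
def Pot.lv (P : Pot Q N k Sj Vj sg) (j : ℕ) (μ : Fin 0 → Ix) : Sch →L[ℂ] Completion D :=
  Grp.toC (sg j) (P.lin j) (P.cont j)

lemma Pot.lv_apply (P : Pot Q N k Sj Vj sg) (j : ℕ) (μ : Fin 0 → Ix) (g : Sch) :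
    P.lv j μ g = sg j (ev g) := rfl

lemma Pot.top_lv (P : Pot Q N k Sj Vj sg) (j : ℕ) (hj : k < j) : P.lv j = 0 :=
  funext fun μ => ContinuousLinearMap.ext fun g => P.top j _ hj ⟨g, rfl⟩

theorem Pot.lmu (P : Pot c.Q N k Sj Vj sg) : Two.LMu c k 2 P.lv :=
  .of_fam (fun j μ g => P.perp j _ ⟨g, rfl⟩) P.top_lv fun l μ s L a f g hs hL e => by
    have := P.cov l s L a (ev f) hs hL ⟨f, rfl⟩
    rw [show (fun x => ev f (sim s L a x)) = ev g from (funext e).symm] at this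
    simp only [Pot.lv_apply, Finset.univ_unique, Finset.sum_singleton, Finset.univ_eq_empty,
      Finset.prod_empty, mul_one, show (4 : ℝ) - 2 = 2 by norm_num, Real.rpow_two, Complex.coe_smul]
    rw [show Ug c.Q s L a (ex0 k _ _) = _ from this, smul_inv_smul₀ (by positivity)]
    rfl

lemma Pot.sum (P : Pot Q N k Sj Vj sg) (j : ℕ) {ι : Type*} (t : Finset ι) (a : ι → ℂ) {g : ι → Fn}
    (hg : ∀ i, IsTest (g i)) : sg j (fun x => ∑ i ∈ t, a i * g i x) = ∑ i ∈ t, a i • sg j (g i) := by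
  choose g' e using hg
  have h := _root_.map_sum (P.lv j default) (fun i => a i • g' i) t
  simpa only [map_smul, Pot.lv_apply, Grp.ev_sum, e] using h

lemma Pot.smul (P : Pot Q N k Sj Vj sg) (j : ℕ) (a : ℂ) (hf : IsTest f) :
    sg j (fun x => a * f x) = a • sg j f := by
  obtain ⟨g, rfl⟩ := hf
  exact map_smul (P.lv j default) a g

lemma Pot.dv (P : Pot Q N k Sj Vj sg) (j : ℕ) (h : V) (hf : IsTest f) :
    sg j (dv h f) = ∑ m, (h m : ℂ) • sg j (pd m f) := P.sum j _ _ fun m => Grp.test_pd m hf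

/-- `V_j (h f)` on the vacuum -/
def Ctx.vj (c : Ctx D) (j : ℕ) (h : V) (f : Fn) : Completion D :=
  ∑ m, ((eta m * h m : ℝ) : ℂ) • ((c.Vj j m f c.Q.vac : D) : Completion D)

lemma Ctx.Vv_eq (l : ℝ) (h : V) (f : Fn) : c.Vv l h f = ex0 c.k l fun j => c.vj j h f := by
  simp only [Ctx.Vv, Ctx.vj, coe_sum, Completion.coe_smul, fam1, Two.ex0_coe, Two.ex0_sum]

lemma Ctx.jv_eq (h : V) (f : Fn) : c.jv h f = c.vj 0 h f + c.sg 0 (dv h f) := by
  rw [Ctx.jv, Ctx.Vv_eq, Two.ex0_zero, Ctx.sl, fam0, Two.ex0_zero]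

lemma Ctx.Sv_eq (l : ℝ) (F : Ix → Ix → Fn) : c.Sv l F =
    ex0 c.k l fun j => ((∑ m, ∑ n, c.Sj j m n (F m n) c.Q.vac : D) : Completion D) := by
  simp only [Ctx.Sv, Ctx.Sf, fam2, ← Two.ex0_sum', Two.ex0_coe]

variable [Fact c.can]

lemma Ctx.vj_lv (j : ℕ) (h : V) (g : Sch) :
    c.vj j h (ev g) = ∑ μ, (sy ![h] μ : ℂ) • (c.hC.fam.p1 j).lv μ g := by
  rw [← P1.lv_h, Ctx.vj, coe_sum]
  simp only [Completion.coe_smul]

lemma Ctx.vj_grad {j : ℕ} (hj : 1 ≤ j) (h : V) (hf : IsTest f) :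
    c.vj j h f = -c.sg j (dv h f) := by
  rw [c.hC.pot.dv j h hf, Ctx.vj, ← Finset.sum_neg_distrib]
  refine Finset.sum_congr rfl fun m _ => ?_
  rw [c.hC.pot.grad j m f hj hf, smul_smul, ← neg_smul]
  congr 1
  push_cast
  linear_combination (-h m : ℂ) * Nul.eta_sq m

theorem twol_thm (c : Ctx D) [Fact c.can] : TWOL c where
  s := by
    obtain ⟨C, h0, e⟩ := c.hC.fam.lmu_S.two c.hC.fam.top_S (by norm_num)
    refine ⟨C, h0, fun l h k f ⟨g, hg⟩ => ?_⟩
    subst hg
    have := e l 0 ![h, k] g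
    simp only [zero_add] at this
    simp only [Ctx.Sv_eq, (c.hC.fam.p2 _).lv_hk]
    exact this.trans (Two.wd_mono fun p _ => le_of_eq (by norm_num [mul_assoc]))
  v := by
    obtain ⟨C, h0, e⟩ := c.hC.fam.lmu_V.two c.hC.fam.top_V (by norm_num)
    refine ⟨C, h0, fun l h f ⟨g, hg⟩ => ?_⟩
    subst hg
    have := e l 0 ![h] g
    simp only [zero_add] at this
    simp only [Ctx.Vv_eq, Ctx.vj_lv]
    exact this.trans (Two.wd_mono fun p _ => le_of_eq (by norm_num [mul_assoc]))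
  g := by
    obtain ⟨C, h0, e⟩ := c.hC.pot.lmu.two c.hC.pot.top_lv (by norm_num)
    refine ⟨C, h0, fun l f ⟨g, hg⟩ => ?_⟩
    subst hg
    have := e l 0 ![] g
    simp only [zero_add, sy, Finset.univ_unique, Finset.sum_singleton, Finset.univ_eq_empty,
      Finset.prod_empty, Complex.ofReal_one, one_smul] at this
    exact this.trans (Two.wd_mono fun p _ => le_of_eq (by norm_num [mul_assoc]))

/-- **the overlaps of the two top potentials** -/
theorem ovl_thm (c : Ctx D) [Fact c.can] (m : ℕ)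
    (hm : ∀ j f, m + 1 < j → IsTest f → c.sg j f = 0) : ∃ (c0 : ℝ) (α : ℂ), 0 ≤ c0 ∧
    ∀ f g, IsTest f → IsTest g →
      inner ℂ (c.sg (m + 1) f) (c.sg (m + 1) g) = c0 * ∫ p in Fc, conj (ft f p) * ft g p ∧
      IntegrableOn (fun p => ((Real.log (mu p) : ℝ) : ℂ) * (conj (ft f p) * ft g p)) Fc ∧
      inner ℂ (c.sg (m + 1) f) (c.sg m g) = α * (∫ p in Fc, conj (ft f p) * ft g p) -
        c0 / 2 * ∫ p in Fc, (Real.log (mu p) : ℝ) * (conj (ft f p) * ft g p) := by
  obtain ⟨c0, α, h0, e⟩ := c.hC.pot.lmu.ovl c.hC.pot.top_lv m (fun j hj => funext fun μ =>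
    ContinuousLinearMap.ext fun g => hm j _ hj ⟨g, rfl⟩) default
  refine ⟨c0, α, h0, ?_⟩
  rintro _ _ ⟨f, rfl⟩ ⟨g, rfl⟩
  exact ⟨(e f g).1, Lgm.lg_log.int (by fun_prop) ⟨f, rfl⟩ ⟨g, rfl⟩, (e f g).2⟩

namespace Sg

lemma dv_sim (hf : IsTest f) (s : ℝ) (L : Ix → V) (a h : V) :
    (dv h fun x => f (sim s L a x)) = fun x => (s : ℂ) * dv (sim 1 L 0 h) f (sim s L a x) := by
  funext x
  let A : V →L[ℝ] V := LinearMap.toContinuousLinearMap
    { toFun := sim s L 0
      map_add' := fun y z => by ext n; simp [sim, add_mul, Finset.sum_add_distrib, mul_add]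
      map_smul' := fun r y => by ext n; simp [sim, Finset.mul_sum, mul_assoc, mul_left_comm] }
  have e : ∀ y, sim s L a y = A y + a := fun y => by ext n; simp [A, sim, add_comm]
  have := Ap.dv_aff A a (x := x) ((Ap.sw_smooth hf).differentiable (by simp) _) h
  simp only [← e] at this
  rw [this, ← Ap.dv_smul_l]
  congr 1
  ext n
  simp [A, sim]

lemma jv_fam (l : ℝ) (h : V) (hf : IsTest f) : c.jv h f = c.Vv l h f + c.sl l (dv h f) := by
  rw [Ctx.jv_eq, Ctx.Vv_eq, Ctx.sl, fam0, ← Two.ex0_plus, Two.ex0_top _ fun j hj => by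
    rw [c.vj_grad hj h hf, neg_add_cancel]]

lemma vv_cov (l : ℝ) {s : ℝ} {L : Ix → V} (a h : V) (hs : 0 < s) (hL : IsLor L) (hf : IsTest f) :
    c.Vv l (sim 1 L 0 h) f =
      (s : ℂ) • Ug c.Q s L a (c.Vv (l + Real.log s) h fun x => f (sim s L a x)) := by
  have := fun m => c.hC.fam.cov1 l m s L a f c.Q.vac hs hL hf
  rw [c.Q.U_vac s L a hs hL] at this
  simp only [Ctx.Vv, this, coe_sum, Completion.coe_smul, _root_.map_sum, map_smul, Grp.coe hs hL,
    Finset.smul_sum, smul_smul]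
  rw [Finset.sum_comm]
  refine Finset.sum_congr rfl fun i _ => ?_
  rw [← Finset.sum_smul, ← md_L hL i h, GF.mdot]
  congr 1
  push_cast
  rw [Finset.mul_sum]
  exact Finset.sum_congr rfl fun m _ => by ring

lemma wave (h : V) (hf : IsTest f) : c.Wv h f = (-(1 / 3) : ℂ) • c.jv h (box f) := by
  have t := fun n => Grp.test_pd n hf
  have e : ∀ m n, c.T m n (ad h f m n) c.Q.vac = ((eta m * h m : ℝ) : ℂ) •
      improveJ (c.Sj 0) (c.Vj 0) m n (pd n f) c.Q.vac := fun m n => by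
    rw [show c.T m n (ad h f m n) c.Q.vac = _ from Grp.fld_smul (c.hT.fld m n) _ (t n) _,
      c.hC.rel 0 m n _ _ (t n)]
    simp only [improveJ, fam2, fam1, Two.ex0_zero]
  rw [Ctx.jv_eq, c.hC.pot.dv 0 h (Ap.test_box hf), Ctx.vj, ← Finset.sum_add_distrib, Finset.smul_sum]
  simp only [Ctx.Wv, Ctx.Wf, Ctx.Tf, e, ← Finset.smul_sum, c.hC.fam.div2 0 _ hf, coe_sum,
    Completion.coe_smul, Completion.coe_add, pd_box hf, c.hC.pot.trace 0 _ (t _)]
  rw [Finset.smul_sum]
  refine Finset.sum_congr rfl fun m _ => ?_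
  rw [smul_comm, smul_add, smul_smul]
  congr 3
  push_cast
  linear_combination (h m : ℂ) * Nul.eta_sq m

end Sg

theorem cur_thm (c : Ctx D) [Fact c.can] : CUR c where
  lin h f g a hf hg := by
    have d := fun {f : Fn} (hf : IsTest f) x => (Ap.sw_smooth hf).differentiable (by simp) x
    have e : (dv h fun x => f x + a * g x) = fun x => dv h f x + a * dv h g x := funext fun x => by
      rw [Ap.dv_add (d hf x) ((d hg x).const_mul a), Ap.dv_cmul]
    simp only [Ctx.jv_eq, Ctx.vj, e, c.hC.pot.lin 0 _ _ a (Grp.test_dv h hf) (Grp.test_dv h hg),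
      c.Q.lin _ f g a _ ((c.hC.fam.p1 0).fld _) hf hg, Completion.coe_add, Completion.coe_smul,
      smul_add, Finset.sum_add_distrib, Finset.smul_sum, smul_comm a]
    abel
  hlin a h h' f hf := by
    simp only [Ctx.jv_eq, Ctx.vj, c.hC.pot.dv 0 _ hf, Pi.add_apply, Pi.smul_apply, smul_eq_mul,
      mul_add, Complex.ofReal_add, Complex.ofReal_mul, add_smul, smul_add, Finset.sum_add_distrib,
      Finset.smul_sum, smul_smul, mul_left_comm (a : ℂ)]
    abel
  cont h := by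
    simp only [Ctx.jv_eq, Ctx.vj_lv, fun g : Sch => c.hC.pot.dv 0 h ⟨g, rfl⟩, Grp.pd_ev,
      ← c.hC.pot.lv_apply 0 default]
    exact (continuous_finset_sum _ fun μ _ =>
      ((c.hC.fam.p1 0).lv μ).continuous.const_smul (sy ![h] μ : ℂ)).add
      (continuous_finset_sum _ fun m _ => ((c.hC.pot.lv 0 default).continuous.comp
        (LineDeriv.lineDerivOpCLM ℂ Sch (bas m 1 : V)).continuous).const_smul (h m : ℂ))
  eq l h f hf := Sg.jv_fam l h hf
  cov s L a h f hs hL hf := by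
    have t := Grp.test_sim hs hL a (Grp.test_dv (sim 1 L 0 h) hf)
    have e := c.hC.pot.cov 0 s L a _ hs hL (Grp.test_dv (sim 1 L 0 h) hf)
    have h0 : (s : ℂ) ≠ 0 := Complex.ofReal_ne_zero.2 hs.ne'
    rw [Sg.jv_fam (0 + Real.log s) h (Grp.test_sim hs hL a hf), Ctx.jv, Sg.vv_cov 0 a h hs hL hf,
      Sg.dv_sim hf, map_add, Ctx.sl, fam0]
    simp only [c.hC.pot.smul _ _ t, Two.ex0_smul, map_smul]
    rw [show Ug c.Q s L a (ex0 _ _ _) = _ from e, ← Complex.coe_smul, ← Complex.coe_smul, smul_add,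
      smul_smul, smul_smul]
    push_cast
    rw [inv_mul_cancel₀ h0, one_smul]
    congr 2
    field_simp
  perp h f hf := by
    simp only [Ctx.jv_eq, Ctx.vj, inner_add_right, inner_sum, inner_smul_right,
      c.hC.pot.perp 0 _ (Grp.test_dv h hf), Ctx.Om, om, Completion.inner_coe,
      (c.hC.fam.p1 0).perp _ _ hf, mul_zero, Finset.sum_const_zero, zero_add]
    exact c.hC.pot.perp 0 _ (Grp.test_dv h hf)
  cons f hf := by
    have s := Ap.sw_smooth hf
    have t := fun a b => Grp.test_dv a (Grp.test_dv b hf)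
    have e1 : box f = fun x => ∑ i : Fin 4, ![1, 1, -1, -1] i * ![dv va (dv vb f), dv vb (dv va f),
        dv (ex 0) (dv (ex 0) f), dv (ex 1) (dv (ex 1) f)] i x := funext fun x => by
      simp [Ap.box_eq s, Fin.sum_univ_four, Ap.dv_comm s vb va]
      ring
    have e2 := c.hC.pot.trace 0 f hf
    rw [e1, c.hC.pot.sum 0 _ _ (fun i => by fin_cases i <;> exact t _ _), c.hC.fam.div 0 f _ hf,
      Completion.coe_neg, coe_sum] at e2
    have e : ∀ y m, c.Vj 0 m (dv y f) c.Q.vac = ∑ k, (y k : ℂ) • c.Vj 0 m (pd k f) c.Q.vac :=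
      fun y m => Grp.fld_sum ((c.hC.fam.p1 0).fld m) _ _ (fun k => Grp.test_pd k hf) _
    simp only [Ctx.jv_eq, Ctx.vj, e, coe_sum, Completion.coe_smul, Fin.sum_univ_two]
    simp only [Fin.sum_univ_four, Matrix.cons_val_zero, Matrix.cons_val_one, Matrix.cons_val] at e2
    generalize c.sg 0 (dv va (dv vb f)) = x1 at e2 ⊢
    generalize c.sg 0 (dv vb (dv va f)) = x2 at e2 ⊢
    generalize c.sg 0 (dv (ex 0) (dv (ex 0) f)) = x3 at e2 ⊢
    generalize c.sg 0 (dv (ex 1) (dv (ex 1) f)) = x4 at e2 ⊢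
    simp [Fin.sum_univ_four, va, vb, ex, tv, pt, P352X.e2, eta, o]
    linear_combination (norm := module) e2
  wave h f hf := Sg.wave h hf
  trace f hf := by
    rw [Ctx.l, smul_smul, show c.Th f = c.Wv va f from rfl, Sg.wave va hf]
    norm_num
  wl h a b y f ha hb hab hf := by
    have e : dv h (bar f) = bar (dv h f) := funext fun x =>
      Ap.dv_bar ((Ap.sw_smooth hf.1).differentiable (by simp) x) h
    rw [Ctx.jv_eq, Ctx.jv_eq, e]
    exact (Pr.sum _ fun m _ => ((c.hC.fam.p1 0).pr m hf).csmul _).add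
      (c.hC.pot.wl 0 a b y _ ha hb hab (Ap.in_dv h hf))

omit [Fact c.can] in
theorem twol_row (c : Ctx D) : T1 c → c.can → TWOL c := fun _ h =>
  haveI : Fact c.can := ⟨h⟩
  twol_thm c

omit [Fact c.can] in
theorem cur_row (c : Ctx D) : T1 c → c.can → CUR c := fun _ h =>
  haveI : Fact c.can := ⟨h⟩
  cur_thm c

end

end Vale.Agent.P352X.ZZ
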