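import Vale.Agent.P352X.Api3
import Vale.Agent.P352X.Api4
import Mathlib.Analysis.SpecialFunctions.JapaneseBracket
import Mathlib.Analysis.SpecialFunctions.Integrals.Basic

/-!
# P352Z: logarithms of the mass are integrable on the cone (helper40)
-/

set_option linter.all false

open MeasureTheory Measure Set Filter Topology
open scoped SchwartzMap ComplexConjugate NNReal ENNReal

namespace Vale.Agent.P352X.Lgm

open Vale.Agent.P352.GF Vale.Agent.P352.BW Vale.Agent.P352.H496 Vale.Agent.P352.H755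

noncomputable section

/-- the length of the spatial part -/
def rr (q : Fin 3 → ℝ) : ℝ := Real.sqrt (q 0 ^ 2 + q 1 ^ 2 + q 2 ^ 2)

/-- the spatial part -/
def sp (p : V) : Fin 3 → ℝ := fun j => p (Fin.succAbove 0 j)

/-- the singular factor -/
def hs (t : ℝ) : ℝ := (Ioc (0 : ℝ) 1).indicator (fun t => t ^ (-1 / 2 : ℝ)) t

lemma hs_nonneg (t : ℝ) : 0 ≤ hs t := indicator_nonneg (fun t ht => Real.rpow_nonneg ht.1.le _) t

lemma meas_hs : Measurable hs := Measurable.indicator (by fun_prop) measurableSet_Ioc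

lemma int_hs : Integrable hs := by
  refine (integrable_indicator_iff measurableSet_Ioc).2 ?_
  exact (intervalIntegrable_iff_integrableOn_Ioc_of_le zero_le_one).1
    (intervalIntegral.intervalIntegrable_rpow' (by norm_num))

lemma norm_sp (p : V) : ‖sp p‖ ≤ ‖p‖ :=
  (pi_norm_le_iff_of_nonneg (norm_nonneg p)).2 fun j => norm_le_pi_norm p _

lemma mu_sp (p : V) : mu p = p 0 ^ 2 - rr (sp p) ^ 2 := by
  rw [rr, Real.sq_sqrt (by positivity), mu, mdot_eq]
  simp [sp, Fin.succAbove]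
  ring

lemma log_le (N : ℕ) : ∃ C : ℝ, 0 ≤ C ∧ ∀ p ∈ Fc, (1 + |Real.log (mu p)|) ^ N ≤
    C * (1 + ‖p‖) ^ N * (1 + hs (p 0 - rr (sp p))) := by
  set ε : ℝ := 1 / (2 * (N + 1)) with hε
  have e0 : 0 < ε := by positivity
  refine ⟨2 ^ N + (1 + 2 / ε) ^ N, by positivity, fun p hp => ?_⟩
  have h1 : 0 < mu p := hp.1
  have h2 : 0 < p 0 := hp.2
  have h3 := mu_sp p
  have h4 : 0 ≤ rr (sp p) := Real.sqrt_nonneg _
  have h5 : p 0 ≤ ‖p‖ := (le_abs_self _).trans (norm_le_pi_norm p 0)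
  have h6 := hs_nonneg (p 0 - rr (sp p))
  have h7 : 1 ≤ (1 + ‖p‖) ^ N := one_le_pow₀ (by linarith)
  set t := p 0 - rr (sp p) with ht
  have t0 : 0 < t := by nlinarith
  rcases le_or_gt 1 (mu p) with h | h
  · have a1 := Real.log_le_rpow_div h1.le (by norm_num : (0 : ℝ) < 1 / 2)
    have a2 : mu p ^ (1 / 2 : ℝ) ≤ p 0 := by
      rw [← Real.sqrt_eq_rpow]
      exact Real.sqrt_le_iff.2 ⟨h2.le, by nlinarith⟩
    rw [abs_of_nonneg (Real.log_nonneg h)]
    calc _ ≤ (2 * (1 + ‖p‖)) ^ N := pow_le_pow_left₀ (by linarith [Real.log_nonneg h])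
          (by linarith) N
      _ = 2 ^ N * (1 + ‖p‖) ^ N * 1 := by rw [mul_pow, mul_one]
      _ ≤ _ := by
        gcongr
        · exact le_add_of_nonneg_right (by positivity)
        · linarith
  · have b1 : t ^ 2 ≤ mu p := by nlinarith
    have b2 : t < 1 := by nlinarith
    have b3 : 1 ≤ t⁻¹ := (one_le_inv₀ t0).2 b2.le
    have b4 : 1 ≤ t⁻¹ ^ ε := Real.one_le_rpow b3 e0.le
    have a1 := Real.log_le_rpow_div (inv_pos.2 t0).le e0
    have a2 := Real.log_le_log (by positivity) b1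
    rw [Real.log_pow, Nat.cast_ofNat] at a2
    rw [Real.log_inv] at a1
    rw [abs_of_neg (Real.log_neg h1 h)]
    have a3 : 1 + -Real.log (mu p) ≤ (1 + 2 / ε) * t⁻¹ ^ ε := by
      rw [add_mul, one_mul, div_mul_eq_mul_div, mul_div_assoc]
      linarith
    have a4 : (t⁻¹ ^ ε) ^ N ≤ hs t := by
      rw [hs, indicator_of_mem (show t ∈ Ioc 0 1 from ⟨t0, b2.le⟩), ← Real.rpow_natCast,
        ← Real.rpow_mul (by positivity), neg_div, Real.rpow_neg t0.le, ← Real.inv_rpow t0.le]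
      refine Real.rpow_le_rpow_of_exponent_le b3 ?_
      rw [hε, div_mul_eq_mul_div, div_le_div_iff₀ (by positivity) (by positivity)]
      linarith
    calc _ ≤ ((1 + 2 / ε) * t⁻¹ ^ ε) ^ N := pow_le_pow_left₀
          (by linarith [Real.log_neg h1 h]) a3 N
      _ ≤ (1 + 2 / ε) ^ N * 1 * hs t := by
        rw [mul_pow, mul_one]
        gcongr
      _ ≤ _ := by
        gcongr
        · exact le_add_of_nonneg_left (by positivity)
        · linarith

lemma int_sing : Integrable fun p : V => hs (p 0 - rr (sp p)) * (1 + ‖sp p‖) ^ (-4 : ℝ) := by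
  have hw := integrable_one_add_norm (E := Fin 3 → ℝ) (μ := volume) (r := 4) (by norm_num)
  have hm := volume_preserving_piFinSuccAbove (fun _ : Fin 4 => ℝ) 0
  have hr : Continuous rr := by unfold rr; fun_prop
  have m1 := meas_hs
  have key : Integrable (fun z : ℝ × (Fin 3 → ℝ) => hs (z.1 - rr z.2) * (1 + ‖z.2‖) ^ (-4 : ℝ))
      (volume.prod volume) := by
    rw [integrable_prod_iff' (Measurable.aestronglyMeasurable (by fun_prop))]
    refine ⟨.of_forall fun q => ?_, ?_⟩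
    · exact (int_hs.comp_sub_right (rr q)).mul_const ((1 + ‖q‖) ^ (-4 : ℝ))
    simp only [norm_mul, integral_mul_const, integral_sub_right_eq_self (fun t => ‖hs t‖)]
    exact hw.norm.const_mul _
  exact (hm.integrable_comp_emb (MeasurableEquiv.measurableEmbedding _)).2 key

/-- **integrability of the logarithms** -/
theorem int_log (N : ℕ) : IntegrableOn
    (fun p : V => (1 + |Real.log (mu p)|) ^ N * ((1 + ‖p‖) ^ (N + 5))⁻¹) Fc := by
  obtain ⟨C, hC, h⟩ := log_le N
  have hw := integrable_one_add_norm (E := V) (μ := volume) (r := 5) (by norm_num)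
  refine ((hw.add int_sing).const_mul C).integrableOn.mono'
    (Measurable.aestronglyMeasurable (by fun_prop))
    ((ae_restrict_mem meas_Fc).mono fun p hp => ?_)
  have h0 : 0 < 1 + ‖p‖ := by positivity
  have h6 := hs_nonneg (p 0 - rr (sp p))
  have a : ((1 + ‖p‖) ^ 5)⁻¹ ≤ (1 + ‖sp p‖) ^ (-4 : ℝ) := by
    rw [Real.rpow_neg (by positivity), show (4 : ℝ) = (4 : ℕ) by norm_num, Real.rpow_natCast]
    refine inv_anti₀ (by positivity) ((pow_le_pow_left₀ (by positivity)
      (by linarith [norm_sp p]) 4).trans (pow_le_pow_right₀ (by linarith [norm_nonneg p])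
      (by norm_num)))
  rw [Real.norm_of_nonneg (by positivity), Pi.add_apply, Real.rpow_neg h0.le,
    show (5 : ℝ) = (5 : ℕ) by norm_num, Real.rpow_natCast]
  calc _ ≤ C * (1 + ‖p‖) ^ N * (1 + hs (p 0 - rr (sp p))) * ((1 + ‖p‖) ^ (N + 5))⁻¹ := by
        gcongr
        exact h p hp
    _ = C * (((1 + ‖p‖) ^ 5)⁻¹ + hs (p 0 - rr (sp p)) * ((1 + ‖p‖) ^ 5)⁻¹) := by
        rw [pow_add]
        field_simp
    _ ≤ _ := by gcongr

/-- the basic weight -/
def ww (p : V) : ℝ := (1 + |Real.log (mu p)|) * (1 + ‖p‖)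

lemma one_le_ww (p : V) : 1 ≤ ww p :=
  one_le_mul_of_one_le_of_one_le (by linarith [abs_nonneg (Real.log (mu p))])
    (by linarith [norm_nonneg p])

/-- at most logarithmic at the boundary of the cone and polynomial at infinity -/
def Lg (ρ : V → ℝ) : Prop := ∃ (C : ℝ) (N : ℕ), 0 ≤ C ∧ ∀ p ∈ Fc, |ρ p| ≤ C * ww p ^ N

variable {ρ ρ' : V → ℝ}

lemma Lg.const (a : ℝ) : Lg fun _ => a := ⟨|a|, 0, abs_nonneg a, fun p _ => by simp⟩

lemma Lg.mul (h : Lg ρ) (h' : Lg ρ') : Lg fun p => ρ p * ρ' p := by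
  obtain ⟨C, N, hC, h⟩ := h
  obtain ⟨C', N', hC', h'⟩ := h'
  refine ⟨C * C', N + N', by positivity, fun p hp => ?_⟩
  rw [abs_mul, pow_add, mul_mul_mul_comm]
  exact mul_le_mul (h p hp) (h' p hp) (abs_nonneg _) ((abs_nonneg _).trans (h p hp))

lemma Lg.add (h : Lg ρ) (h' : Lg ρ') : Lg fun p => ρ p + ρ' p := by
  obtain ⟨C, N, hC, h⟩ := h
  obtain ⟨C', N', hC', h'⟩ := h'
  refine ⟨C + C', N + N', by positivity, fun p hp => (abs_add_le _ _).trans ?_⟩
  have a := pow_le_pow_right₀ (one_le_ww p) (Nat.le_add_right N N')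
  have b := pow_le_pow_right₀ (one_le_ww p) (Nat.le_add_left N' N)
  rw [add_mul]
  exact add_le_add ((h p hp).trans (by gcongr)) ((h' p hp).trans (by gcongr))

lemma Lg.of_le (h : Lg ρ') (e : ∀ p ∈ Fc, |ρ p| ≤ |ρ' p|) : Lg ρ := by
  obtain ⟨C, N, hC, h⟩ := h
  exact ⟨C, N, hC, fun p hp => (e p hp).trans (h p hp)⟩

lemma Lg.neg (h : Lg ρ) : Lg fun p => -ρ p := h.of_le fun p _ => (abs_neg _).le

lemma Lg.sub (h : Lg ρ) (h' : Lg ρ') : Lg fun p => ρ p - ρ' p := by
  simpa only [sub_eq_add_neg] using h.add h'.neg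

lemma Lg.abs (h : Lg ρ) : Lg fun p => |ρ p| := h.of_le fun p _ => (abs_abs _).le

lemma Lg.pow (h : Lg ρ) (n : ℕ) : Lg fun p => ρ p ^ n := by
  induction n with
  | zero => simpa using Lg.const 1
  | succ n ih => simpa only [pow_succ] using ih.mul h

lemma Lg.sum {ι : Type*} (s : Finset ι) {F : ι → V → ℝ} (h : ∀ i, Lg (F i)) :
    Lg fun p => ∑ i ∈ s, F i p := by
  classical
  induction s using Finset.induction_on with
  | empty => simpa using Lg.const 0
  | insert a s ha ih => simpa only [Finset.sum_insert ha] using (h a).add ih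

lemma Lg.prod {ι : Type*} (s : Finset ι) {F : ι → V → ℝ} (h : ∀ i, Lg (F i)) :
    Lg fun p => ∏ i ∈ s, F i p := by
  classical
  induction s using Finset.induction_on with
  | empty => simpa using Lg.const 1
  | insert a s ha ih => simpa only [Finset.prod_insert ha] using (h a).mul ih

lemma lg_log : Lg fun p => Real.log (mu p) := ⟨1, 1, zero_le_one, fun p _ => by
  rw [one_mul, pow_one, ww]
  nlinarith [abs_nonneg (Real.log (mu p)), norm_nonneg p]⟩

lemma lg_co (m : Ix) : Lg fun p => p m := ⟨1, 1, zero_le_one, fun p _ => by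
  have : |p m| ≤ ‖p‖ := norm_le_pi_norm p m
  rw [one_mul, pow_one, ww]
  nlinarith [abs_nonneg (Real.log (mu p)), norm_nonneg p]⟩

lemma lg_md (h : V) : Lg fun p => mdot h p :=
  Lg.sum _ fun m => (Lg.const (eta m * h m)).mul (lg_co m)

lemma lg_mu : Lg mu :=
  (Lg.sum Finset.univ fun m => ((Lg.const (eta m)).mul (lg_co m)).mul (lg_co m)).of_le
    fun p _ => le_of_eq rfl

lemma lg_nn (h : V) : Lg fun p => nn p h :=
  ((Lg.const 2).mul ((lg_md h).pow 2)).sub (lg_mu.mul (Lg.const _))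

lemma lg_rpow {e : ℝ} (he : 0 ≤ e) : Lg fun p => mu p ^ e :=
  (((Lg.const 1).add lg_mu).pow ⌈e⌉₊).of_le fun p hp => by
    have h1 : 0 < mu p := hp.1
    rw [abs_of_nonneg (by positivity), abs_of_nonneg (by positivity), ← Real.rpow_natCast]
    exact (Real.rpow_le_rpow h1.le (by linarith) he).trans
      (Real.rpow_le_rpow_of_exponent_le (by linarith) (Nat.le_ceil e))

/-- such weights are tempered -/
theorem Lg.bd (h : Lg ρ) : ∃ (m : ℕ) (C : ℝ), 0 ≤ C ∧ ∀ f : Sch,
    ∫⁻ p in Fc, ENNReal.ofReal (ρ p * ‖ft (ev f) p‖ ^ 2) ≤ ENNReal.ofReal ((C * sn m f) ^ 2) := by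
  obtain ⟨C, N, hC, h⟩ := h
  obtain ⟨m, C', hC', hd⟩ := ft_decay (N + 3)
  set I := ∫ p in Fc, (1 + |Real.log (mu p)|) ^ N * ((1 + ‖p‖) ^ (N + 5))⁻¹
  have hI : 0 ≤ I := integral_nonneg fun p => by positivity
  refine ⟨m, Real.sqrt (C * I) * C', by positivity, fun f => ?_⟩
  rw [mul_assoc, mul_pow, Real.sq_sqrt (by positivity), mul_right_comm, ← integral_const_mul,
    ofReal_integral_eq_lintegral_ofReal ((int_log N).const_mul _) (.of_forall fun p => by positivity)]
  refine lintegral_mono_ae ((ae_restrict_mem meas_Fc).mono fun p hp => ENNReal.ofReal_le_ofReal ?_)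
  have h0 : 1 ≤ 1 + ‖p‖ := by linarith [norm_nonneg p]
  have a := pow_le_pow_left₀ (by positivity) (hd f p) 2
  calc _ ≤ C * ww p ^ N * ‖ft (ev f) p‖ ^ 2 := by
        gcongr
        exact (le_abs_self _).trans (h p hp)
    _ = C * ((1 + ‖p‖) ^ (N + N + 5) * ‖ft (ev f) p‖ ^ 2) *
        ((1 + |Real.log (mu p)|) ^ N * ((1 + ‖p‖) ^ (N + 5))⁻¹) := by
        rw [ww, mul_pow, add_assoc N, pow_add _ N (N + 5)]
        field_simp
    _ ≤ _ := by
        gcongr
        refine le_trans ?_ a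
        rw [mul_pow, ← pow_mul]
        exact mul_le_mul_of_nonneg_right (pow_le_pow_right₀ h0 (by omega)) (by positivity)

/-- integrability against test functions -/
theorem Lg.int (h : Lg ρ) (hm : Measurable ρ) {f g : Fn} (hf : IsTest f) (hg : IsTest g) :
    IntegrableOn (fun p => (ρ p : ℂ) * (conj (ft f p) * ft g p)) Fc := by
  obtain ⟨C, N, hC, h⟩ := h
  obtain ⟨g, rfl⟩ := hg
  obtain ⟨m, C', hC', hd⟩ := ft_decay (N + N + 5)
  have m1 := (cont_ft hf).measurable
  have m2 := (cont_ft ⟨g, rfl⟩).measurable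
  refine ((int_log N).const_mul (C * (∫ z, ‖f z‖) * (C' * sn m g))).mono'
    (Measurable.aestronglyMeasurable (by fun_prop))
    ((ae_restrict_mem meas_Fc).mono fun p hp => ?_)
  have h0 : 0 < 1 + ‖p‖ := by positivity
  rw [norm_mul, norm_mul, Complex.norm_real, Real.norm_eq_abs, Complex.norm_conj]
  calc _ ≤ C * ww p ^ N * ((∫ z, ‖f z‖) * ‖ft (ev g) p‖) := by
        gcongr
        · exact (abs_nonneg _).trans (h p hp)
        · exact h p hp
        · exact norm_ft_le f p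
    _ = C * (∫ z, ‖f z‖) * ((1 + ‖p‖) ^ (N + N + 5) * ‖ft (ev g) p‖) *
        ((1 + |Real.log (mu p)|) ^ N * ((1 + ‖p‖) ^ (N + 5))⁻¹) := by
        rw [ww, mul_pow, add_assoc N, pow_add _ N (N + 5)]
        field_simp
    _ ≤ _ := by
        have : 0 ≤ ∫ z, ‖f z‖ := integral_nonneg fun z => norm_nonneg _
        exact mul_le_mul_of_nonneg_right (mul_le_mul_of_nonneg_left (hd g p) (by positivity))
          (by positivity)

end

end Vale.Agent.P352X.Lgm
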