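import Vale.Agent.P352X.R.TWO
import Vale.Agent.P352Z.R.TWO.Mu

/-!
# P352Z: the two point function of a covariant multiplet (helper40, after helper21)
-/

set_option linter.all false

open MeasureTheory Measure Set Filter Topology
open scoped SchwartzMap ComplexConjugate NNReal ENNReal

namespace Vale.Agent.P352X.ZZ.Two

open Vale.Agent.P352.GF Vale.Agent.P352.BW Vale.Agent.P352.H496 Vale.Agent.P352.H755
open UniformSpace (Completion)
open Vale.Agent.P352X.Two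

noncomputable section

variable {D : Type*} [NormedAddCommGroup D] [InnerProductSpace ℂ D] {c : Ctx D}

/-- measures on the cone with a density -/
def wd (ρ : V → ℝ) : Measure V := (volume.restrict Fc).withDensity fun p => ENNReal.ofReal (ρ p)

lemma wd_mono {ρ ρ' : V → ℝ} (h : ∀ p ∈ Fc, ρ p ≤ ρ' p) : wd ρ ≤ wd ρ' :=
  withDensity_mono ((ae_fc _).mono fun p hp => ENNReal.ofReal_le_ofReal (h p hp))

lemma wd_smul (κ : ℝ≥0) (ρ : V → ℝ) : κ • wd ρ = wd fun p => κ * ρ p := by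
  rw [wd, wd, ENNReal.smul_def, ← withDensity_smul' _ _ ENNReal.coe_ne_top]
  congr 1
  funext p
  rw [ENNReal.ofReal_mul κ.coe_nonneg, ENNReal.ofReal_coe_nnreal]
  rfl

lemma ae_of_le {v : Completion D} {ρ : V → ℝ} (h : c.nu v ≤ wd ρ) : ∀ᵐ p ∂c.nu v, p ∈ Fc :=
  (h.absolutelyContinuous.trans (withDensity_absolutelyContinuous _ _)).ae_le (ae_fc _)

lemma nu_sum_le {ι : Type*} (s : Finset ι) {w : ι → Completion D} {M : Measure V}
    (h : ∀ i, c.nu (w i) ≤ M) : c.nu (∑ i ∈ s, w i) ≤ (4 ^ s.card : ℝ≥0) • M := by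
  classical
  refine Finset.induction_on s (c.bt.nu_zero.trans_le (Measure.zero_le _)) fun a s ha ih => ?_
  rw [Finset.sum_insert ha, Finset.card_insert_of_notMem ha]
  refine (c.bt.nu_add_le _ _).trans (Measure.le_iff'.2 fun S => ?_)
  have h1 := Measure.le_iff'.1 (h a) S
  have h2 := Measure.le_iff'.1 ih S
  have h3 : M S ≤ (4 ^ s.card : ℝ≥0) • M S := le_mul_of_one_le_left' (by
    exact_mod_cast one_le_pow₀ (by norm_num : (1 : ℝ≥0) ≤ 4))
  calc _ ≤ (2 : ℝ≥0) • ((4 ^ s.card : ℝ≥0) • M S + (4 ^ s.card : ℝ≥0) • M S) :=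
        mul_le_mul_right (add_le_add (h1.trans h3) h2) _
    _ = _ := by
      simp only [Measure.smul_apply, ENNReal.smul_def, smul_eq_mul]
      push_cast
      ring

lemma cf_three (h : V) {p : V} (hp : be p ≠ 0) : cf h 3 p * mu p = mdot h p - cf h 0 p * be p := by
  simp [cf, du, mdot_null, mu_eq, d2, e2, -tx_0, -tx_1]
  field_simp
  ring

lemma nn_nonneg (h : V) {p : V} (hp : p ∈ Fc) : 0 ≤ nn p h := by
  obtain ⟨h1, h2⟩ := (mem_Fc p).1 hp
  rw [nn_eq h h1.ne']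
  positivity

lemma cf_le2 (a : Fin 4) (h : V) {p : V} (hp : p ∈ Fc) :
    cf h a p ^ 2 * (be p ^ (2 * (xw a - yw a)) * mu p ^ (1 + 2 * yw a)) ≤ 2 * nn p h := by
  obtain ⟨h1, h2⟩ := (mem_Fc p).1 hp
  have e3 := cf_three h h1.ne'
  have p1 := mul_nonneg h2.le (sq_nonneg (be p * cf h 1 p))
  have p2 := mul_nonneg h2.le (sq_nonneg (be p * cf h 2 p))
  rw [nn_eq h h1.ne']
  fin_cases a
  · norm_num [xw, yw, add_assoc]
    nlinarith [sq_nonneg (cf h 0 p * be p), sq_nonneg (mdot h p)]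
  · norm_num [xw, yw]
    nlinarith [sq_nonneg (cf h 0 p * be p), sq_nonneg (mdot h p)]
  · norm_num [xw, yw]
    erw [show cf h ⟨2, by norm_num⟩ p = cf h 2 p from rfl]
    nlinarith [sq_nonneg (cf h 0 p * be p), sq_nonneg (mdot h p)]
  · norm_num [xw, yw]
    erw [show cf h ⟨3, by norm_num⟩ p = cf h 3 p from rfl]
    rw [← mul_pow, e3]
    nlinarith [sq_nonneg (cf h 0 p * be p + mdot h p)]

variable {K : V → ℂ} {k : ℕ} {d : ℝ} {Λ : (Fin k → Ix) → Sch →L[ℂ] Completion D}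

/-- orthogonal to the vacuum -/
def Pp (c : Ctx D) (Λ : (Fin k → Ix) → Sch →L[ℂ] Completion D) : Prop :=
  ∀ J f, inner ℂ c.Om (Λ J f) = 0

lemma zfg_perp (h0 : Pp c Λ) (hK : Ad k K) (A : Fin k → Fin 4) : inner ℂ c.Om (Zf c Λ K A) = 0 := by
  rw [Zf, Zs, inner_sum]
  exact Finset.sum_eq_zero fun J _ => (Kin.inner_om_Phi c.bR c.ct (hK.ok A J) _).trans (by
    rw [show inner ℂ (om c.Q) (Λ J gS) = 0 from h0 J gS, mul_zero])

theorem zfg_ae (h : Mu c d Λ) (h0 : Pp c Λ) (hd : k + 1 < d) (hK : Ad k K) (A : Fin k → Fin 4) :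
    ∀ᵐ p ∂c.nu (Zf c Λ K A), p ∈ Fc :=
  (h.vc hK A).high hK.wt1 (by
    have := Finset.sum_le_sum fun j (_ : j ∈ Finset.univ) => yw_ge (A j)
    simp only [Finset.sum_const, Finset.card_univ, Fintype.card_fin, nsmul_eq_mul] at this
    linarith) (zfg_perp h0 hK A)

/-- one component -/
lemma gen_one (h : Mu c d Λ) (h0 : Pp c Λ) (hd : k + 1 < d) (hK : Ad k K) (A : Fin k → Fin 4) :
    ∃ κ : ℝ≥0, ∀ (u : Fin k → V) (G F : V → ℂ),
    SN.Bd (fun p => G p * cfs u A p) → (∀ p, ‖G p‖ * ‖K p * ft g0 p‖ ≤ ‖F p‖) →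
    c.nu (c.bt.Phi (fun p => G p * cfs u A p) (Zf c Λ K A)) ≤ κ •
      wd fun p => (∏ j, nn p (u j)) * mu p ^ (d - 2 - k) * ‖F p‖ ^ 2 := by
  obtain ⟨κ, e⟩ := (h.vc hK A).fc (hK.wt1.mono (subset_univ _))
  refine ⟨κ * 2 ^ k, fun u G F hG hF => ?_⟩
  have hm := hK.wt1.bd.1
  rw [restrict_eq_self_of_ae_mem (zfg_ae h h0 hd hK A), mm_wd hm] at e
  rw [nu_Phi' hG, e, mul_smul, wd_smul, ENNReal.smul_def, ENNReal.smul_def,
    withDensity_smul_measure, ← withDensity_mul _ (meas_dn hm _ _).ennreal_ofReal (meas_sq2 hG.1)]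
  refine Measure.le_iff'.2 fun S => mul_le_mul_right (Measure.le_iff'.1 (withDensity_mono
    ((ae_fc _).mono fun p hp => ?_)) S) _
  obtain ⟨h1, h2⟩ := (mem_Fc p).1 hp
  simp only [Pi.mul_apply, sq2, ← ENNReal.ofReal_mul (dn_nonneg _ _ _ hp)]
  refine ENNReal.ofReal_le_ofReal ?_
  calc _ = (∏ j, cf (u j) (A j) p ^ 2 * (be p ^ (2 * (xw (A j) - yw (A j))) *
        mu p ^ (1 + 2 * yw (A j)))) * mu p ^ (d - 2 - k) * (‖G p‖ * ‖K p * ft g0 p‖) ^ 2 := by
        rw [dn, show 2 * (d / 2 + ∑ j, xw (A j)) - 2 * (d / 2 + ∑ j, yw (A j)) =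
          ∑ j, 2 * (xw (A j) - yw (A j)) by
            simp only [mul_sub, Finset.sum_sub_distrib, ← Finset.mul_sum]; ring,
          show 2 * (d / 2 + ∑ j, yw (A j)) - 2 = ∑ j, (1 + 2 * yw (A j)) + (d - 2 - k) by
            simp only [Finset.sum_add_distrib, ← Finset.mul_sum, Finset.sum_const,
              Finset.card_univ, Fintype.card_fin, nsmul_eq_mul]; ring,
          Real.rpow_add h2, Real.rpow_sum_of_pos h1, Real.rpow_sum_of_pos h2, norm_mul (G p), cfs,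
          Complex.norm_real, mul_pow, Real.norm_eq_abs, sq_abs, Finset.prod_mul_distrib,
          Finset.prod_mul_distrib, Finset.prod_pow]
        ring
    _ ≤ (∏ j, 2 * nn p (u j)) * mu p ^ (d - 2 - k) * ‖F p‖ ^ 2 := by
        refine mul_le_mul (mul_le_mul_of_nonneg_right (Finset.prod_le_prod
          (fun j _ => by positivity) fun j _ => cf_le2 _ _ hp) (by positivity))
          (pow_le_pow_left₀ (by positivity) (hF p) 2) (by positivity) ?_
        exact mul_nonneg (Finset.prod_nonneg fun j _ => mul_nonneg zero_le_two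
          (nn_nonneg _ hp)) (by positivity)
    _ = _ := by
        rw [Finset.prod_mul_distrib, Finset.prod_const, Finset.card_univ, Fintype.card_fin]
        push_cast
        ring

/-- **the two point function of a covariant multiplet** -/
theorem two_gen (h : Mu c d Λ) (h0 : Pp c Λ) (hd : k + 1 < d) : ∃ C : ℝ, 0 ≤ C ∧
    ∀ (u : Fin k → V) (f : Sch), c.nu (∑ J, (sy u J : ℂ) • Λ J f) ≤
      wd fun p => C * ((∏ j, nn p (u j)) * mu p ^ (d - 2 - k) * ‖ft (ev f) p‖ ^ 2) := by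
  obtain ⟨K, hK⟩ := ex_ad k
  choose κ hκ using gen_one h h0 hd hK
  refine ⟨(4 ^ Fintype.card (Fin k → Fin 4) * ∑ A, κ A : ℝ≥0), NNReal.coe_nonneg _, fun u f => ?_⟩
  have b := wt_g0.bd
  have bf : SN.Bd (ft (ev f)) := bd_ft ⟨f, rfl⟩
  rw [← wd_smul, mul_smul]
  refine le_of_Bn (Br.ae_be_pos c (by
    simp only [inner_sum, inner_smul_right, h0 _ f, mul_zero, Finset.sum_const_zero]))
    fun n => ?_
  have hG : Cp {p | 0 < be p} fun p => (Bn n).indicator (ft (ev f)) p * (K p * ft g0 p)⁻¹ :=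
    (cp_ind (Bn_cpt n) (Bn_sub n) bf).mul (minv hK.wt1.bd.1)
      ((hK.wt1.cont.mono (subset_univ _)).inv₀ fun p _ => hK.wt1.ne p)
  rw [Ctx.nu, ← c.bt.nu_P (Bn_cpt n).measurableSet, (Phi_inj (c := c) b g0_ne ?_).trans
    (expand (Λ := Λ) hK hG subset_rfl u) (a := c.bt.P (Bn n) (∑ J, (sy u J : ℂ) • Λ J f))]
  · refine nu_sum_le _ fun A => (hκ A u _ _ (hG.cfs subset_rfl _ A).1 fun p => ?_).trans
      (Measure.le_iff'.2 fun S => mul_le_mul_left (ENNReal.coe_le_coe.2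
        (Finset.single_le_sum (fun _ _ => zero_le) (Finset.mem_univ A))) _)
    rw [← norm_mul, inv_mul_cancel_right₀ (hK.wt1.ne p)]
    exact norm_indicator_le_norm_self _ _
  · have bi := SN.Bd.ind (Bn_cpt n).measurableSet
    rw [SN.Calc.P, c.bt.comm b bi, ← c.bt.mul_apply b (hG.1.mul hK.wt.bd)]
    simp only [_root_.map_sum, map_smul, h.rel _ f, ← c.bt.mul_apply bi bf]
    congr! 4 with J _ p
    funext p
    by_cases hp : p ∈ Bn n
    · simp only [indicator_of_mem hp]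
      field_simp [hK.wt.ne p, g0_ne p]
    · simp only [indicator_of_notMem hp, zero_mul, mul_zero]

/-- the dual basis -/
def eb (μ : Fin k → Ix) (j : Fin k) : V := bas (μ j) (eta (μ j))

lemma eta_sq (m : Ix) : eta m * eta m = 1 := by fin_cases m <;> simp [eta, o]

lemma sum_eb (μ : Fin k → Ix) (v : (Fin k → Ix) → Completion D) :
    ∑ J, (sy (eb μ) J : ℂ) • v J = v μ := by
  rw [Finset.sum_eq_single μ (fun J _ hJ => ?_) (by simp)]
  · simp [sy, eb, bas, eta_sq]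
  · obtain ⟨i, hi⟩ := Function.ne_iff.1 hJ
    rw [sy, Finset.prod_eq_zero (Finset.mem_univ i) (by simp [eb, bas, hi])]
    simp

theorem Mu.ae (h : Mu c d Λ) (h0 : Pp c Λ) (hd : k + 1 < d) (μ : Fin k → Ix) (f : Sch) :
    ∀ᵐ p ∂c.nu (Λ μ f), p ∈ Fc := by
  obtain ⟨C, -, e⟩ := two_gen h h0 hd
  have := e (eb μ) f
  rw [sum_eb μ fun J => Λ J f] at this
  exact ae_of_le this

end

end Vale.Agent.P352X.ZZ.Two
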