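import Vale.Agent.P352Z.SG.Lm
import Vale.Agent.P352X.Api2b

/-!
# P352Z: logarithmic multiplets, part two: families, traces, division by the mass, overlaps
(helper40)
-/

set_option linter.all false

open MeasureTheory Measure Set Filter Topology
open scoped SchwartzMap ComplexConjugate NNReal ENNReal

namespace Vale.Agent.P352X.ZZ.Two

open Vale.Agent.P352.GF Vale.Agent.P352.BW Vale.Agent.P352.H496 Vale.Agent.P352.H755
open Vale.Agent.P352.H246 (box)
open UniformSpace (Completion)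
open Vale.Agent.P352X.Two Lgm
open SN.Calc

noncomputable section

section alg

variable {E : Type*} [AddCommGroup E] [Module ℂ E] {N : ℕ} {l : ℝ}

lemma ex0_map {E' G : Type*} [AddCommGroup E'] [Module ℂ E'] [FunLike G E E']
    [LinearMapClass G ℂ E E'] (A : G) (x : ℕ → E) : A (ex0 N l x) = ex0 N l fun i => A (x i) := by
  simp only [ex0, _root_.map_sum, map_smul]

lemma ex0_sum {ι : Type*} (s : Finset ι) (a : ι → ℂ) (x : ι → ℕ → E) :
    ex0 N l (fun j => ∑ i ∈ s, a i • x i j) = ∑ i ∈ s, a i • ex0 N l (x i) := by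
  simp only [ex0, Finset.smul_sum]
  exact Finset.sum_comm.trans (Finset.sum_congr rfl fun i _ => Finset.sum_congr rfl fun j _ =>
    smul_comm _ _ _)

lemma ex0_sum' {ι : Type*} (s : Finset ι) (x : ι → ℕ → E) :
    ex0 N l (fun j => ∑ i ∈ s, x i j) = ∑ i ∈ s, ex0 N l (x i) := by
  simpa only [one_smul] using ex0_sum s (fun _ => 1) x

lemma ex0_smul (a : ℂ) (x : ℕ → E) : ex0 N l (fun j => a • x j) = a • ex0 N l x := by
  simp only [ex0, Finset.smul_sum, smul_comm a]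

lemma ex0_plus (x y : ℕ → E) : ex0 N l (fun i => x i + y i) = ex0 N l x + ex0 N l y := by
  simp only [ex0, smul_add, Finset.sum_add_distrib]

lemma ex0_nil : ex0 N l (fun _ => (0 : E)) = 0 := by simp [ex0]

end alg

variable {D : Type*} [NormedAddCommGroup D] [InnerProductSpace ℂ D] {c : Ctx D}
  {k N : ℕ} {d : ℝ} {Λ : ℕ → (Fin k → Ix) → Sch →L[ℂ] Completion D}

lemma ex0_coe (l : ℝ) (x : ℕ → D) :
    ((ex0 N l x : D) : Completion D) = ex0 N l fun i => (x i : Completion D) :=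
  ex0_map (Completion.toComplL (𝕜 := ℂ) (E := D)) x

/-- from the law of the family to the law of the components -/
theorem LMu.of_fam (h0 : ∀ j, Pp c (Λ j)) (top : ∀ j, N < j → Λ j = 0)
    (h : ∀ l μ s L a (f g : Sch), 0 < s → IsLor L → (∀ x, g x = f (sim s L a x)) →
      ex0 N l (fun j => Λ j μ f) = ∑ ν : Fin k → Ix, ((s ^ (4 - d) * ∏ i, L (ν i) (μ i) : ℝ) : ℂ) •
        Ug c.Q s L a (ex0 N (l + Real.log s) fun j => Λ j ν g)) : LMu c N d Λ where
  perp := h0
  cov j μ s L a f g hs hL e := by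
    by_cases hj : j ≤ N
    · refine sub_eq_zero.1 (ex0_coef (N := N) (x := fun j => Λ j μ f - ∑ ν : Fin k → Ix,
        ((s ^ (4 - d) * ∏ i, L (ν i) (μ i) : ℝ) : ℂ) •
          Ug c.Q s L a (ex0 N (Real.log s) fun i => Λ (j + i) ν g)) (fun l => ?_) j hj)
      rw [ex0_sub, ex0_sum, h l μ s L a f g hs hL e, sub_eq_zero]
      refine Finset.sum_congr rfl fun ν _ => ?_
      rw [ex0_add l _ fun i hi => by rw [top i hi]; rfl, ex0_map]
    · have : ∀ i, Λ (j + i) = 0 := fun i => top _ (by omega)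
      simp [this, top j (by omega), ex0_nil]

/-- the law of the family -/
theorem LMu.fam (h : LMu c N d Λ) (top : ∀ j, N < j → Λ j = 0) (l : ℝ) (μ : Fin k → Ix) {s : ℝ}
    {L : Ix → V} {a : V} {f g : Sch} (hs : 0 < s) (hL : IsLor L) (e : ∀ x, g x = f (sim s L a x)) :
    ex0 N l (fun j => Λ j μ f) = ∑ ν : Fin k → Ix, ((s ^ (4 - d) * ∏ i, L (ν i) (μ i) : ℝ) : ℂ) •
      Ug c.Q s L a (ex0 N (l + Real.log s) fun j => Λ j ν g) := by
  rw [show (fun j => Λ j μ f) = _ from funext fun j => h.cov j μ s L a f g hs hL e, ex0_sum]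
  refine Finset.sum_congr rfl fun ν _ => ?_
  rw [ex0_add l _ fun i hi => by rw [top i hi]; rfl, ex0_map]

/-- translation covariant distributions -/
def Tr (c : Ctx D) (X : Sch →L[ℂ] Completion D) : Prop :=
  ∀ y f, X (ST.tsl y f) = Ut c.Q y (X f)

variable {X X' : Sch →L[ℂ] Completion D}

lemma Tr.rel (h : Tr c X) (f : Sch) : c.bt.Phi (ft g0) (X f) = c.bt.Phi (ft (ev f)) (X gS) :=
  rel_clm X (fun y _ => h y f) fun y _ => h y gS

lemma LMu.tr (h : LMu c N d Λ) (j : ℕ) (μ : Fin k → Ix) : Tr c (Λ j μ) := fun y f => by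
  rw [h.cov j μ 1 P352.GF.one y _ f one_pos isLor_one fun x => (congrFun (Grp.tsl_sim y f) x).symm,
    Finset.sum_eq_single μ (fun ν _ hν => ?_) (by simp)]
  · simp [P352.GF.one, bas, Ut, ex0_zero]
  · obtain ⟨i, hi⟩ := Function.ne_iff.1 hν
    rw [Finset.prod_eq_zero (Finset.mem_univ i) (by simp [P352.GF.one, bas, hi.symm])]
    simp

/-- the bound for one component -/
theorem LMu.one (h : LMu c N d Λ) (h0 : ∀ j, N < j → Λ j = 0) (hd : k + 2 ≤ d) : ∃ C : ℝ, 0 ≤ C ∧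
    ∀ (j : ℕ) (μ : Fin k → Ix) (f : Sch), c.nu (Λ j μ f) ≤ wd fun p =>
      C * ((∏ i, nn p (eb μ i)) * mu p ^ (d - 2 - k) * (1 + |Real.log (mu p)|) ^ (2 * N)) *
        ‖ft (ev f) p‖ ^ 2 := by
  obtain ⟨C, hC, e⟩ := h.two h0 hd
  refine ⟨C, hC, fun j μ f => ?_⟩
  simpa only [ex0_zero, add_zero, sum_eb μ fun J => Λ j J f, mul_zero, sub_zero, mul_assoc]
    using e 0 j (eb μ) f

theorem LMu.ae (h : LMu c N d Λ) (h0 : ∀ j, N < j → Λ j = 0) (hd : k + 2 ≤ d) (j : ℕ)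
    (μ : Fin k → Ix) (f : Sch) : ∀ᵐ p ∂c.nu (Λ j μ f), p ∈ Fc :=
  let ⟨_, _, e⟩ := h.one h0 hd
  ae_of_le (e j μ f)

/-- the trace of a tensor -/
def trc (Y : (Fin 2 → Ix) → Sch →L[ℂ] Completion D) (μ : Fin 0 → Ix) : Sch →L[ℂ] Completion D :=
  ∑ m, (eta m : ℂ) • Y ![m, m]

lemma trc_apply (Y : (Fin 2 → Ix) → Sch →L[ℂ] Completion D) (μ : Fin 0 → Ix) (f : Sch) :
    trc Y μ f = ∑ m, (eta m : ℂ) • Y ![m, m] f := by
  simp only [trc, ContinuousLinearMap.sum_apply, ContinuousLinearMap.smul_apply]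

theorem LMu.trace {Λ : ℕ → (Fin 2 → Ix) → Sch →L[ℂ] Completion D} (h : LMu c N d Λ) :
    LMu c N d fun j => trc (Λ j) where
  perp j μ f := by
    simp only [trc_apply, inner_sum, inner_smul_right, h.perp j _ f, mul_zero, Finset.sum_const_zero]
  cov j μ s L a f g hs hL e := by
    simp only [trc_apply, h.cov j _ s L a f g hs hL e, Finset.univ_unique, Finset.sum_singleton,
      Finset.univ_eq_empty, Finset.prod_empty, mul_one, ex0_sum, _root_.map_sum, map_smul,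
      Finset.smul_sum, smul_smul, sum2, Fin.prod_univ_two, Matrix.cons_val_zero,
      Matrix.cons_val_one]
    rw [Finset.sum_comm]
    refine Finset.sum_congr rfl fun m _ => ?_
    rw [Finset.sum_comm]
    simp only [← Finset.sum_smul]
    have e : ∀ l, ∑ n, (eta n : ℂ) * ((s ^ (4 - d) * (L m n * L l n) : ℝ) : ℂ) =
        (s ^ (4 - d) * bas m (eta m) l : ℝ) := fun l => by
      rw [← hL.1 m l, mdot, Finset.mul_sum]
      push_cast
      exact Finset.sum_congr rfl fun j _ => by ring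
    simp only [e, bas]
    rw [Finset.sum_eq_single m (fun l _ hl => by simp [hl]) (by simp)]
    simp

/-- minus the inverse mass -/
def im (p : V) : ℂ := ((-(mu p)⁻¹ : ℝ) : ℂ)

lemma meas_im : Measurable im := by unfold im; fun_prop

/-- **division by the mass** -/
theorem LMu.div (h : LMu c N d Λ) (top : ∀ j, N < j → Λ j = 0) (hd : k + 4 ≤ d) :
    ∃ Y : ℕ → (Fin k → Ix) → Sch →L[ℂ] Completion D, LMu c N (d - 2) Y ∧ (∀ j, N < j → Y j = 0) ∧
      ∀ j μ f, c.bt.Dom im (Λ j μ f) ∧ Y j μ f = c.bt.Psi im (Λ j μ f) := by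
  obtain ⟨C, -, b⟩ := h.one top (by linarith)
  choose Y hY using fun j μ => ex_mul (x := Λ j μ) (by unfold nn; fun_prop) meas_im (b j μ)
    (((Lg.const C).mul (((Lg.prod Finset.univ fun i => lg_nn (eb μ i)).mul
      (lg_rpow (e := d - 4 - k) (by linarith))).mul (((Lg.const 1).add lg_log.abs).pow
        (2 * N)))).of_le fun p hp => le_of_eq (by
      have h1 : 0 < mu p := hp.1
      rw [im, Complex.norm_real, Real.norm_eq_abs, sq_abs,
        show d - 2 - k = d - 4 - k + 2 by ring, Real.rpow_add h1, Real.rpow_two]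
      congr 1
      field_simp))
  refine ⟨Y, ⟨fun j μ f => ?_, fun j μ s L a f g hs hL e => ?_⟩, fun j hj => funext fun μ =>
    ContinuousLinearMap.ext fun f => ?_, hY⟩
  · rw [(hY j μ f).2]
    exact perp_psi (hY j μ f).1 (h.perp j μ f)
  · have d1 := fun ν => psi_sum (Finset.range (N + 1))
      (fun i => ((Real.log s ^ i / i.factorial : ℝ) : ℂ)) meas_im fun i => (hY (j + i) ν g).1
    have u := fun ν => ug_psi hs hL a (d1 ν).1
    have e1 : (fun p => im (Kin.du s L p)) = fun p => ((s ^ 2)⁻¹ : ℝ) * im p := funext fun p => by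
      rw [im, im, mu, Kin.du_sq s hL, ← mu, mul_inv]
      push_cast
      ring
    have e2 : im = fun p => (s ^ 2 : ℝ) * im (Kin.du s L p) := funext fun p => by
      rw [congrFun e1 p, ← mul_assoc, ← Complex.ofReal_mul, mul_inv_cancel₀ (by positivity),
        Complex.ofReal_one, one_mul]
    have d2 := psi_sum Finset.univ (fun ν : Fin k → Ix =>
      ((s ^ (4 - d) * ∏ i, L (ν i) (μ i) : ℝ) : ℂ)) (u μ).1.1 fun ν => (u ν).1
    rw [(hY j μ f).2, h.cov j μ s L a f g hs hL e]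
    conv_lhs => rw [e2]
    simp only [ex0, (hY _ _ g).2]
    rw [Psi_smul _ d2.1, d2.2, Finset.smul_sum]
    refine Finset.sum_congr rfl fun ν _ => ?_
    rw [← (u ν).2, (d1 ν).2, smul_smul, ← Complex.ofReal_mul, show 4 - (d - 2) = 2 + (4 - d) by ring,
      Real.rpow_add hs, Real.rpow_two, mul_assoc]
  · rw [(hY j μ f).2, top j hj]
    exact Psi_zero_vec meas_im

lemma Tr.div_box (h : Tr c X) (ae : ∀ᵐ p ∂c.nu (X gS), p ∈ Fc) {f g : Sch}
    (dm : c.bt.Dom im (X g)) (e : ev g = box (ev f)) : c.bt.Psi im (X g) = X f := by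
  have b := wt_g0.bd
  have bf := bd_ft ⟨f, rfl⟩
  have bg := bd_ft ⟨g, rfl⟩
  have e1 : (fun p => im p * ft (ev g) p) =ᵐ[c.nu (X gS)] ft (ev f) := ae.mono fun p hp => by
    have h1 : (mu p : ℂ) ≠ 0 := Complex.ofReal_ne_zero.2 (ne_of_gt hp.1)
    simp only [e, ft_box ⟨f, rfl⟩, im]
    push_cast
    field_simp
  have d1 : c.bt.Dom (fun p => im p * ft (ev g) p) (X gS) :=
    (Dom.of_bd bf (X gS)).congr_ae (meas_im.mul bg.1) e1.symm
  refine Phi_inj (c := c) b g0_ne ?_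
  rw [← Psi_Phi_comm dm b, h.rel, h.rel, Psi_Phi bg meas_im d1, Psi_congr_ae d1 bf.1 e1, Psi_bd bf]

/-- solutions of the wave equation with spectrum in the open cone vanish -/
lemma Tr.box_zero (h : Tr c X) (ae : ∀ᵐ p ∂c.nu (X gS), p ∈ Fc)
    (h0 : ∀ g, ev g = box g0 → X g = 0) : X = 0 := by
  obtain ⟨g, hg⟩ := Ap.test_box g0_in.1
  have := h.div_box ae (f := gS) (g := g) (by rw [h0 g hg]; exact Dom.zero_vec meas_im) hg
  rw [h0 g hg, Psi_zero_vec meas_im] at this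
  refine ContinuousLinearMap.ext fun f => Phi_inj (c := c) wt_g0.bd g0_ne ?_
  rw [h.rel, ← this, ContinuousLinearMap.zero_apply, map_zero, map_zero]

variable {Y Y' : (Fin 0 → Ix) → Sch →L[ℂ] Completion D}

lemma Mu.vc0 (h : Mu c d Y) (μ : Fin 0 → Ix) : Vc c (ft g0) (Y μ gS) (d / 2) (d / 2) := by
  have := h.vc (K := fun _ => 1) ⟨⟨.const 1, fun _ => one_ne_zero, continuousOn_const⟩,
    fun A J => by simpa [sy] using SN.Bd.const 1⟩ ![]
  simp [Zf, Zs, sy, c.bt.one] at this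
  exact (congrArg (fun ν => Vc c (ft g0) (Y ν gS) (d / 2) (d / 2))
    (funext fun i => i.elim0)).mp this

/-- **overlaps of scalars of dimension two** -/
theorem sc_ov (h : Mu c 2 Y) (h' : Mu c 2 Y') (h0 : Pp c Y) (μ : Fin 0 → Ix) :
    ∃ κ : ℂ, ∀ (f g : Sch) (G : V → ℂ), c.bt.Dom G (Y' μ g) →
      IntegrableOn (fun p => G p * (conj (ft (ev f) p) * ft (ev g) p)) Fc →
      inner ℂ (Y μ f) (c.bt.Psi G (Y' μ g)) =
        κ * ∫ p in Fc, G p * (conj (ft (ev f) p) * ft (ev g) p) := by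
  obtain ⟨κ, -, -, e⟩ := overlap (h.vc0 μ) (h'.vc0 μ) wt_g0 (h.ae h0 (by norm_num) μ gS)
  refine ⟨κ, fun f g G dm hi => ?_⟩
  have bf := bd_ft ⟨f, rfl⟩
  have bg := bd_ft ⟨g, rfl⟩
  have key := fun n => transfer (H := fun _ => κ) wt_g0.bd g0_ne bf bg (h.rel μ f) (h'.rel μ g)
    (fun G hG => (e G hG).trans (integral_congr_ae (.of_forall fun p => by
      simp only [SN.conj_mul_self, dn]; norm_num [mul_comm])))
    ((SN.integrable_conj_mul (memLp_ft ⟨f, rfl⟩ Fc) (memLp_ft ⟨g, rfl⟩ Fc)).const_mul κ)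
    (trunc_bd dm.1 n)
  refine tendsto_nhds_unique ((tendsto_const_nhds (x := Y μ f)).inner (𝕜 := ℂ) (tendsto_trunc dm)) ?_
  simp only [key, mul_left_comm _ κ, integral_const_mul]
  refine (tendsto_integral_of_dominated_convergence _ (fun n =>
    ((trunc_bd dm.1 n).1.mul (bf.cj.mul bg).1).aestronglyMeasurable) hi.norm
    (fun n => .of_forall fun p => ?_)
    (.of_forall fun p => (trunc_tendsto G p).mul_const _)).const_mul κ
  exact (norm_mul _ _).trans_le ((mul_le_mul_of_nonneg_right (norm_trunc_le G n p)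
    (norm_nonneg _)).trans_eq (norm_mul _ _).symm)

lemma int_one (f g : Sch) : IntegrableOn (fun p => (1 : ℂ) * (conj (ft (ev f) p) * ft (ev g) p)) Fc :=
  (SN.integrable_conj_mul (memLp_ft ⟨f, rfl⟩ Fc) (memLp_ft ⟨g, rfl⟩ Fc)).const_mul 1

lemma g0_pos : 0 < ∫ p in Fc, ‖ft g0 p‖ ^ 2 := by
  rw [integral_pos_iff_support_of_nonneg (fun p => by positivity)
    (SN.memLp_sq (memLp_ft g0_in.1 Fc)), show Function.support (fun p => ‖ft g0 p‖ ^ 2) = univ from
      eq_univ_of_forall fun p => by simpa using g0_ne p, restrict_apply_univ]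
  exact isOpen_Fc.measure_pos _ ⟨_, thi_mem 0⟩

/-- **the two top components of a logarithmic scalar of dimension two** -/
theorem LMu.ovl {Λ : ℕ → (Fin 0 → Ix) → Sch →L[ℂ] Completion D} (h : LMu c N 2 Λ)
    (top : ∀ j, N < j → Λ j = 0) (m : ℕ) (hm : ∀ j, m + 1 < j → Λ j = 0) (μ : Fin 0 → Ix) :
    ∃ (c0 : ℝ) (α : ℂ), 0 ≤ c0 ∧ ∀ f g : Sch,
      inner ℂ (Λ (m + 1) μ f) (Λ (m + 1) μ g) = c0 * ∫ p in Fc, conj (ft (ev f) p) * ft (ev g) p ∧
      inner ℂ (Λ (m + 1) μ f) (Λ m μ g) = α * (∫ p in Fc, conj (ft (ev f) p) * ft (ev g) p) -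
        c0 / 2 * ∫ p in Fc, (Real.log (mu p) : ℝ) * (conj (ft (ev f) p) * ft (ev g) p) := by
  by_cases hN : m + 1 ≤ N
  swap
  · exact ⟨0, 0, le_rfl, fun f g => by simp [top _ (not_le.1 hN)]⟩
  have h1 := h.can hm
  obtain ⟨X, hX, eX⟩ := h1.chain (h.perp _) (by norm_num) hN
  have h2 := (h.sub hX).can (j := m) fun j hj => funext fun μ =>
    ContinuousLinearMap.ext fun f => by
      rw [ContinuousLinearMap.sub_apply, eX, ch]
      rcases (Nat.succ_le_of_lt hj).eq_or_lt with rfl | hj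
      · rw [if_pos le_rfl, Nat.sub_self, pw_zero, Psi_bd (.const 1), c.bt.one]
        exact sub_self _
      · rw [if_neg hj.not_ge, hm j hj]
        exact sub_self _
  obtain ⟨κ, e1⟩ := sc_ov h1 h1 (h.perp _) μ
  obtain ⟨α, e2⟩ := sc_ov h1 h2 (h.perp _) μ
  have a1 := fun f g => e1 f g _ (Dom.of_bd (.const 1) _) (int_one f g)
  have a2 := fun f g => e2 f g _ (Dom.of_bd (.const 1) _) (int_one f g)
  simp only [Psi_bd (.const 1), c.bt.one, ContinuousLinearMap.one_apply, one_mul] at a1 a2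
  have a3 := a1 gS gS
  have p0 := g0_pos
  simp only [SN.conj_mul_self, integral_complex_ofReal, inner_self_eq_norm_sq_to_K] at a3
  have hκ : κ = ((‖Λ (m + 1) μ gS‖ ^ 2 / ∫ p in Fc, ‖ft g0 p‖ ^ 2 : ℝ) : ℂ) := by
    rw [Complex.ofReal_div, eq_div_iff (Complex.ofReal_ne_zero.2 p0.ne'), Complex.ofReal_pow]
    exact a3.symm
  refine ⟨_, α, div_nonneg (sq_nonneg _) p0.le, fun f g => ⟨hκ ▸ a1 f g, ?_⟩⟩
  have e3 : pw 0 1 = fun p => (-1 / 2 : ℂ) * (Real.log (mu p) : ℝ) := funext fun p => by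
    rw [pw]
    push_cast
    ring
  have i1 := lg_log.int (by fun_prop) ⟨f, rfl⟩ ⟨g, rfl⟩
  have a4 := e1 f g _ ((h1.mul (h.perp _) (by norm_num) 0 1 μ).choose_spec g).1 (by
    simpa only [e3, mul_assoc, IntegrableOn] using i1.const_mul (-1 / 2 : ℂ))
  rw [← hκ, ← sub_add_cancel (Λ m μ g) (X m μ g), inner_add_right, ← ContinuousLinearMap.sub_apply,
    a2, eX, ch, if_pos m.le_succ, Nat.add_sub_cancel_left, a4]
  simp only [e3, mul_assoc, integral_const_mul]
  ring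

end

end Vale.Agent.P352X.ZZ.Two
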