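import Vale.Agent.P352Z.SG.Lm2
import Vale.Agent.P352Z.R.TWO.St
import Vale.Agent.P352X.TPD.HMU

/-!
# P352Z: construction of the potentials `σ_j` (helper40)
-/

set_option linter.all false

open MeasureTheory Measure Set Filter Topology
open scoped SchwartzMap ComplexConjugate NNReal ENNReal

namespace Vale.Agent.P352X.ZZ

open Vale.Agent.P352 Vale.Agent.P352.GF Vale.Agent.P352.BW Vale.Agent.P352.H496
open Vale.Agent.P352.H755
open Vale.Agent.P352.H246 (box In improveJ)
open UniformSpace (Completion)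
open Vale.Agent.P352X.Two
open SN.Calc

noncomputable section

variable {D : Type*} [NormedAddCommGroup D] [InnerProductSpace ℂ D] {c : Ctx D}

namespace Sg

/-- bounded real functions of the mass preserve the pairs of the wedges -/
theorem hmu (j : JC c) {a a' y : V} {ψ ψ' : Completion D} {h : ℝ → ℝ} (ha : IsNull a)
    (ha' : IsNull a') (hp : 0 < mdot a a') (hb : SN.Bd fun t => (h t : ℂ))
    (hP : Pr (c.N (Wdg a a' y)) c.Om ψ ψ') : Pr (c.N (Wdg a a' y)) c.Om
      (c.bt.Phi (fun p => h (mu p)) ψ) (c.bt.Phi (fun p => h (mu p)) ψ') := by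
  have hB : SN.Bd fun p : V => (h (mu p) : ℂ) := hb.comp Br.meas_mu
  set A := c.bt.Phi fun p : V => (h (mu p) : ℂ)
  have hL : ∀ L y v, IsLor L → Ug c.Q 1 L y (A v) = A (Ug c.Q 1 L y v) := fun L y v hL => by
    have := Two.ug_psi one_pos hL y (Dom.of_bd (C := c.bt.toCalc) hB v)
    have e : (fun p => (h (mu (Kin.du 1 L p)) : ℂ)) = fun p => (h (mu p) : ℂ) := funext fun p => by
      rw [mu, Kin.du_sq 1 hL, one_pow, one_mul, mu]
    rw [e, Psi_bd hB, Psi_bd hB] at this
    exact this.2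
  obtain ⟨L, h1, h2⟩ := JCa.trans ha ha' hp
  have u := Grp.uni c.bR 1 L y
  have h3 : Pr (c.N (Wdg va vb 0)) c.Om (star (Ug c.Q 1 L y) ψ) (star (Ug c.Q 1 L y) ψ') :=
    hP.cov (Unitary.star_mem u) (by
      conv_lhs => rw [Ctx.Om, ← Grp.vac c.bR 1 L y, ← ContinuousLinearMap.mul_apply, u.1]
      rfl) fun X hX => (Grp.alg c.hN one_pos h1 y _ _).2 (by
        rwa [star_star, ← mul_assoc, ← mul_assoc, u.2, one_mul, mul_assoc, u.2, mul_one, (h2 y).1])
  have h4 := (TPD.Hmu.pr_comm c.E A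
    (fun v w => by simpa only [Complex.conj_ofReal] using c.bt.adj hB v w)
    (fun t v => by
      rw [c.bw, c.bw, Bo, Usc, sqrt_exp_neg]
      exact hL _ _ _ (Grp.lsc (Real.exp_pos _) (Real.exp_pos _)).1)
    (fun v => by
      have := c.bt.cov_anti c.bt SN.isPair_mdot (k := fun p => -jr p) (A := jr)
        cont_jr.neg.measurable (fun p y => by rw [md_neg_l, ← md_jr, jr_jr])
        c.J.toContinuousLinearEquiv.toContinuousLinearMap (v := v) (w := c.J v)
        (fun y => (j.ug 1 _ y v one_pos H496.isLor_one).trans (by rw [JCa.jL_one]; rfl)) hB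
      refine this.trans ?_
      simp only [Complex.conj_ofReal, mu, md_neg_l, md_neg, neg_neg, md_jr, jr_jr, A]) h3).cov u
    (Grp.vac c.bR 1 L y) fun X hX => (h2 y).1 ▸ (Grp.alg c.hN one_pos h1 y _ X).1 hX
  rwa [hL _ _ _ h1, hL _ _ _ h1, ← ContinuousLinearMap.mul_apply _ (star _),
    ← ContinuousLinearMap.mul_apply _ (star _), u.2] at h4

/-- the same for unbounded functions -/
theorem hmu_psi (j : JC c) {a a' y : V} {ψ ψ' : Completion D} {h : ℝ → ℝ} (ha : IsNull a)
    (ha' : IsNull a') (hp : 0 < mdot a a') (hm : Measurable h)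
    (d : c.bt.Dom (fun p => h (mu p)) ψ) (d' : c.bt.Dom (fun p => h (mu p)) ψ')
    (hP : Pr (c.N (Wdg a a' y)) c.Om ψ ψ') : Pr (c.N (Wdg a a' y)) c.Om
      (c.bt.Psi (fun p => h (mu p)) ψ) (c.bt.Psi (fun p => h (mu p)) ψ') := by
  refine Pr.closed (.of_forall fun n => ?_) (tendsto_trunc d) (tendsto_trunc d')
  have e : trunc (fun p : V => (h (mu p) : ℂ)) n =
      fun p => (({t | |h t| ≤ n}.indicator h (mu p) : ℝ) : ℂ) := funext fun p => by
    by_cases hp : |h (mu p)| ≤ n <;> simp [trunc, hp]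
  rw [e]
  refine hmu j ha ha' hp (SN.Bd.ofReal (hm.indicator (measurableSet_le hm.abs measurable_const))
    (C := n) fun t => ?_) hP
  by_cases ht : |h t| ≤ n <;> simp [ht]

lemma dv_box {f : Fn} (hf : IsTest f) (h : V) : dv h (box f) = box (dv h f) := funext fun x => by
  have s := Ap.sw_smooth hf
  have d := fun m => (Ap.smooth_pd (Ap.smooth_pd s m) m).differentiable (by simp) x
  refine (Ap.dv_sum (fun m _ => (d m).const_mul _) h).trans (Finset.sum_congr rfl fun m _ => ?_)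
  rw [Ap.dv_cmul, ← Ap.dv_bas, ← Ap.dv_bas, ← Ap.dv_bas, ← Ap.dv_bas,
    Ap.dv_comm (Ap.smooth_dv s _), funext (Ap.dv_comm s h (bas m 1))]

lemma pd_box {f : Fn} (hf : IsTest f) (m : Ix) : pd m (box f) = box (pd m f) := by
  rw [← Ap.dv_bas, ← Ap.dv_bas, dv_box hf]

end Sg

variable {Q : Theory D} {T : Ix → Ix → Fld D} {J : Ix → Fld D} {O : Set V} {f : Fn}

lemma P2.afs (h : P2 c.Q T) (m n : Ix) (hf : In O f) :
    BW.T.Afs (c.N O) (T m n f) (T m n (bar f)) :=
  afs_of_aff (fun v w => h.herm m n f v w hf.1) (c.hN.fld O _ f (h.fld m n) hf)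

lemma P1.afs (h : P1 c.Q J) (m : Ix) (hf : In O f) : BW.T.Afs (c.N O) (J m f) (J m (bar f)) :=
  afs_of_aff (fun v w => h.herm m f v w hf.1) (c.hN.fld O _ f (h.fld m) hf)

lemma P2.pr (h : P2 c.Q T) (m n : Ix) (hf : In O f) :
    Pr (c.N O) c.Om (T m n f c.Q.vac : D) (T m n (bar f) c.Q.vac : D) := .of_afs (h.afs m n hf) _

lemma P1.pr (h : P1 c.Q J) (m : Ix) (hf : In O f) :
    Pr (c.N O) c.Om (J m f c.Q.vac : D) (J m (bar f) c.Q.vac : D) := .of_afs (h.afs m hf) _

lemma P2.trc (h : P2 Q T) (μ : Fin 0 → Ix) (g : Sch) :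
    Two.trc h.lv μ g = (GF.tr T (ev g) Q.vac : D) := by
  simp only [Two.trc_apply, GF.tr, coe_sum, Completion.coe_smul, P2.lv_apply, Matrix.cons_val_zero,
    Matrix.cons_val_one]

variable {k : ℕ} {Sj : ℕ → Ix → Ix → Fld D} {Vj : ℕ → Ix → Fld D}

lemma Fam.top_S (F : Fam Q k Sj Vj) (j : ℕ) (hj : k < j) : (F.p2 j).lv = 0 :=
  funext fun μ => ContinuousLinearMap.ext fun g => by
    rw [P2.lv_apply, F.top2 j _ _ _ _ hj ⟨g, rfl⟩]
    rfl

lemma Fam.top_V (F : Fam Q k Sj Vj) (j : ℕ) (hj : k < j) : (F.p1 j).lv = 0 :=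
  funext fun μ => ContinuousLinearMap.ext fun g => by
    rw [P1.lv_apply, F.top1 j _ _ _ hj ⟨g, rfl⟩]
    rfl

lemma Fam.top_Th (F : Fam Q k Sj Vj) (j : ℕ) (hj : k < j) : Two.trc (F.p2 j).lv = 0 :=
  funext fun μ => by simp [F.top_S j hj, Two.trc]

theorem Fam.lmu_S (F : Fam c.Q k Sj Vj) : Two.LMu c k 4 fun j => (F.p2 j).lv :=
  .of_fam (fun j => Two.pp2 _) F.top_S fun l μ s L a f g hs hL e => by
    have := F.cov2 l (μ 0) (μ 1) s L a (ev f) c.Q.vac hs hL ⟨f, rfl⟩
    rw [c.Q.U_vac s L a hs hL, show (fun x => ev f (sim s L a x)) = ev g from (funext e).symm]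
      at this
    simp only [P2.lv_apply, ← Two.ex0_coe]
    rw [show ex0 k l _ = _ from this, sum2]
    simp only [coe_sum, Completion.coe_smul, Grp.coe hs hL, sub_self, Real.rpow_zero, fam2,
      one_mul, Fin.prod_univ_two, Matrix.cons_val_zero, Matrix.cons_val_one, Complex.ofReal_mul]

theorem Fam.lmu_V (F : Fam c.Q k Sj Vj) : Two.LMu c k 3 fun j => (F.p1 j).lv :=
  .of_fam (fun j => Two.pp1 _) F.top_V fun l μ s L a f g hs hL e => by
    have := F.cov1 l (μ 0) s L a (ev f) c.Q.vac hs hL ⟨f, rfl⟩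
    rw [c.Q.U_vac s L a hs hL, show (fun x => ev f (sim s L a x)) = ev g from (funext e).symm]
      at this
    simp only [P1.lv_apply, ← Two.ex0_coe]
    rw [show ex0 k l _ = _ from this, sum1]
    simp only [coe_sum, Completion.coe_smul, Grp.coe hs hL, show (4 : ℝ) - 3 = 1 by norm_num,
      Real.rpow_one, fam1, Fin.prod_univ_one, Matrix.cons_val_zero, Matrix.cons_val_fin_one,
      Complex.ofReal_mul]

/-- the divergence of the improved tensor in the second index -/
lemma Fam.div2 (F : Fam Q k Sj Vj) (j : ℕ) (m : Ix) (hf : IsTest f) (v : D) :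
    ∑ n, improveJ (Sj j) (Vj j) m n (pd n f) v =
      (-(1 / 3) : ℂ) • (Vj j m (box f) v + (eta m : ℂ) • GF.tr (Sj j) (pd m f) v) := by
  have t := fun n => Grp.test_pd n hf
  have e : Vj j m (box f) v = ∑ n, (eta n : ℂ) • Vj j m (pd n (pd n f)) v :=
    Grp.fld_sum ((F.p1 j).fld m) _ _ (fun n => Grp.test_pd n (t n)) v
  simp only [improveJ, Finset.sum_add_distrib, Finset.sum_sub_distrib, F.symm j m _ _ v (t _),
    F.conserved j m f v hf, F.div j _ v (t m), e, bas]
  rw [Finset.sum_eq_single m (f := fun n => ((((if n = m then eta m else 0 : ℝ) : ℂ) / 3) •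
    ∑ k, Vj j k (pd k (pd n f)) v)) (fun n _ hn => by simp [hn]) (by simp), if_pos rfl,
    show ∑ n, (eta n / 3 : ℂ) • Vj j m (pd n (pd n f)) v =
      (1 / 3 : ℂ) • ∑ n, (eta n : ℂ) • Vj j m (pd n (pd n f)) v by
        rw [Finset.smul_sum]
        exact Finset.sum_congr rfl fun n _ => by module]
  module

/-- **existence of the potentials** -/
theorem sg_thm (c : Ctx D) (jc : JC c) (F : Fam c.Q k Sj Vj)
    (hA : ∀ j m n f, 1 ≤ j → IsTest f → improveJ (Sj j) (Vj j) m n f c.Q.vac = 0) :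
    ∃ sg, Pot c.Q c.N k Sj Vj sg := by
  have hT := F.lmu_S.trace
  obtain ⟨Y, hY, top, e⟩ := hT.div F.top_Th (by norm_num)
  have tr : ∀ j (f g : Sch), ev g = box (ev f) → Y j default g = (GF.tr (Sj j) (ev f) c.Q.vac : D) :=
    fun j f g hg => by
      rw [(e j _ g).2, (hT.tr j _).div_box (hT.ae F.top_Th (by norm_num) j _ _) (e j _ g).1 hg,
        P2.trc]
  refine ⟨fun j f => Y j default (sch f), ?_, fun j => ?_, fun j f hj _ => ?_, ?_, ?_,
    fun j f _ => hY.perp j _ _, ?_, ?_⟩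
  · rintro j _ _ a ⟨f, rfl⟩ ⟨g, rfl⟩
    rw [Ap.sch_ev, Ap.sch_ev, Ap.sch_eq (f := fun x => ev f x + a * ev g x) (G := f + a • g)
      fun _ => rfl, map_add, map_smul]
  · simpa only [Ap.sch_ev] using (Y j default).continuous
  · rw [top j hj]
    rfl
  · rintro j _ ⟨f, rfl⟩
    exact tr j f _ (Ap.ev_sch (Ap.test_box ⟨f, rfl⟩))
  · rintro l s L a _ hs hL ⟨f, rfl⟩
    have := hY.fam top l default hs hL (Grp.simS_apply hs hL a f)
    have e1 : sch (fun x => ev f (sim s L a x)) = _ := Ap.sch_eq (Grp.simS_apply hs hL a f)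
    simp only [fam0, Ap.sch_ev, e1, this, Finset.univ_unique,
      Finset.sum_singleton, Finset.univ_eq_empty, Finset.prod_empty, mul_one,
      show (4 : ℝ) - (4 - 2) = 2 by norm_num, Real.rpow_two, Complex.coe_smul]
    rw [inv_smul_smul₀ (by positivity)]
    exact congrArg (fun ν => Ug c.Q s L a (ex0 k (l + Real.log s) fun j =>
      Y j ν (Grp.simS hs hL a f))) (funext fun i => i.elim0)
  · rintro j a b y f ha hb hab hf
    simp only [(e j _ _).2]
    refine Sg.hmu_psi jc (h := fun t => -t⁻¹) ha hb hab (by fun_prop) (e j _ _).1 (e j _ _).1 ?_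
    simp only [Two.trc_apply, P2.lv_apply, Ap.ev_sch hf.1, Ap.ev_sch (Ap.test_bar hf.1)]
    exact Pr.sum _ fun m _ => ((F.p2 j).pr _ _ hf).csmul _
  · rintro j m _ hj ⟨f, rfl⟩
    let X : Sch →L[ℂ] Completion D := (F.p1 j).lv ![m] +
      (eta m : ℂ) • Y j default ∘L LineDeriv.lineDerivOpCLM ℂ Sch (bas m 1 : V)
    have eX : ∀ g, X g = (Vj j m (ev g) c.Q.vac : D) + (eta m : ℂ) • Y j default (sch (pd m (ev g))) :=
      fun g => by
        rw [Grp.pd_ev, Ap.sch_ev]
        rfl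
    have h0 : X = 0 := Two.Tr.box_zero (c := c) (fun y g => by
      rw [eX, eX, map_add, map_smul, ← hY.tr j default y,
        Ap.sch_eq (G := ST.tsl y (sch (pd m (ev g)))) fun x => by
          rw [ST.tsl_apply, Ap.sch_apply (Grp.test_pd m ⟨g, rfl⟩), ← Ap.dv_bas, ← Ap.dv_bas,
            sub_eq_add_neg, ← Ap.dv_tr]
          simp only [ev, ← sub_eq_add_neg, ← ST.tsl_apply]]
      exact congrArg (· + _) (F.lmu_V.tr j ![m] y g))
      (ae_add (F.lmu_V.ae F.top_V (by norm_num) j _ _)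
        (ae_smul _ (hY.ae top (by norm_num) j _ _))) fun g hg => by
      have := F.div2 j m g0_in.1 c.Q.vac
      rw [Finset.sum_eq_zero fun n _ => hA j m n _ hj (Grp.test_pd n g0_in.1), eq_comm,
        smul_eq_zero_iff_right (by norm_num)] at this
      rw [eX, hg, tr j (sch (pd m g0)) _ (by
        rw [Ap.ev_sch (Grp.test_pd m (Ap.test_box g0_in.1)), Ap.ev_sch (Grp.test_pd m g0_in.1),
          Sg.pd_box g0_in.1]), Ap.ev_sch (Grp.test_pd m g0_in.1), ← Completion.coe_smul,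
        ← Completion.coe_add, this, Completion.coe_zero]
    have := eX f
    rw [h0, ContinuousLinearMap.zero_apply, eq_comm, add_eq_zero_iff_eq_neg] at this
    rw [this, neg_smul]

end

end Vale.Agent.P352X.ZZ
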