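import Vale.Agent.P352X.R.WK.Ker
import Vale.Agent.P352Z.SG.Log
import Vale.Agent.P352Z.SG.Gen

/-!
# P352Z: logarithmic multiplets (helper40)
-/

set_option linter.all false

open MeasureTheory Measure Set Filter Topology
open scoped SchwartzMap ComplexConjugate NNReal ENNReal

namespace Vale.Agent.P352X.ZZ.Two

open Vale.Agent.P352.GF Vale.Agent.P352.BW Vale.Agent.P352.H496 Vale.Agent.P352.H755
open UniformSpace (Completion)
open Vale.Agent.P352X.Two Lgm
open SN.Calc

noncomputable section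

section alg

variable {E : Type*} [AddCommGroup E] [Module ℂ E] {N : ℕ}

lemma ex0_zero (x : ℕ → E) : ex0 N 0 x = x 0 := by
  rw [ex0, Finset.sum_range_succ', Finset.sum_eq_zero fun i _ => by simp]
  simp

lemma ex0_sub (l : ℝ) (x y : ℕ → E) : ex0 N l (fun i => x i - y i) = ex0 N l x - ex0 N l y := by
  simp only [ex0, smul_sub, Finset.sum_sub_distrib]

lemma ex0_top (l : ℝ) {x : ℕ → E} (h : ∀ i, 1 ≤ i → x i = 0) : ex0 N l x = x 0 := by
  rw [ex0, Finset.sum_range_succ', Finset.sum_eq_zero fun i _ => by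
    rw [h _ (Nat.le_add_left 1 i), smul_zero]]
  simp

lemma binom (t x : ℝ) (a : ℕ) : ∑ i ∈ Finset.range (a + 1),
    t ^ i / i.factorial * (x ^ (a - i) / (a - i).factorial) = (t + x) ^ a / a.factorial := by
  rw [add_pow, Finset.sum_div]
  refine Finset.sum_congr rfl fun i hi => ?_
  rw [Nat.cast_choose ℝ (Nat.lt_succ_iff.1 (Finset.mem_range.1 hi))]
  field_simp

/-- polynomials that vanish on the line have vanishing coefficients -/
lemma ex0_coef {H : Type*} [NormedAddCommGroup H] [InnerProductSpace ℂ H] {x : ℕ → H}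
    (h : ∀ l : ℝ, ex0 N l x = 0) (j : ℕ) (hj : j ≤ N) : x j = 0 := by
  refine ext_inner_left ℂ fun w => ?_
  set q : Polynomial ℂ := ∑ i ∈ Finset.range (N + 1),
    Polynomial.monomial i (inner ℂ w (x i) / i.factorial) with hq
  have h0 : q = 0 := q.eq_zero_of_infinite_isRoot ((Set.infinite_range_of_injective
    Complex.ofReal_injective).mono (by
      rintro _ ⟨l, rfl⟩
      have := congrArg (inner ℂ w) (h l)
      simp only [ex0, inner_sum, inner_smul_right, inner_zero_right] at this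
      rw [mem_setOf_eq, Polynomial.IsRoot, hq, Polynomial.eval_finset_sum, ← this]
      exact Finset.sum_congr rfl fun i _ => by
        rw [Polynomial.eval_monomial]; push_cast; ring))
  have := congrArg (fun r => Polynomial.coeff r j) h0
  simp only [hq, Polynomial.finset_sum_coeff, Polynomial.coeff_monomial, Finset.sum_ite_eq',
    Finset.mem_range, Nat.lt_succ_iff, hj, if_true, Polynomial.coeff_zero, div_eq_zero_iff,
    Nat.cast_eq_zero, j.factorial_ne_zero, or_false] at this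
  rw [this, inner_zero_right]

/-- the group law of `exp (l N)` -/
lemma ex0_add (l t : ℝ) {x : ℕ → E} (h : ∀ i, N < i → x i = 0) :
    ex0 N (l + t) x = ex0 N l fun i => ex0 N t fun m => x (i + m) := by
  simp only [ex0, Finset.smul_sum, smul_smul, ← binom, Complex.ofReal_sum, Finset.sum_smul]
  rw [← Finset.sum_congr rfl fun i hi => Finset.sum_subset
    (Finset.range_mono (Nat.sub_le (N + 1) i)) fun m _ hm => by
      rw [h _ (by simp at hm hi; omega), smul_zero], ← Finset.sum_range_diag_flip]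
  refine Finset.sum_congr rfl fun a _ => Finset.sum_congr rfl fun i hi => ?_
  rw [Nat.add_sub_cancel' (Nat.lt_succ_iff.1 (Finset.mem_range.1 hi)), Complex.ofReal_mul]

end alg

variable {D : Type*} [NormedAddCommGroup D] [InnerProductSpace ℂ D] {c : Ctx D}
  {v : Completion D} {ρ : V → ℝ} {F : V → ℂ}

lemma lint_wd (hρ : Measurable ρ) (hF : Measurable F) (S : Set V) (hS : MeasurableSet S) :
    ∫⁻ p in S, ENNReal.ofReal (‖F p‖ ^ 2) ∂wd ρ = wd (fun p => ‖F p‖ ^ 2 * ρ p) S := by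
  rw [wd, wd, withDensity_apply _ hS, restrict_withDensity hS,
    lintegral_withDensity_eq_lintegral_mul _ hρ.ennreal_ofReal (by fun_prop)]
  refine lintegral_congr fun p => ?_
  rw [Pi.mul_apply, mul_comm, ENNReal.ofReal_mul (sq_nonneg _)]

lemma nu_psi_le (h : c.nu v ≤ wd ρ) (hρ : Measurable ρ) (hF : c.bt.Dom F v) :
    c.nu (c.bt.Psi F v) ≤ wd fun p => ‖F p‖ ^ 2 * ρ p := Measure.le_iff.2 fun S hS => by
  rw [Ctx.nu, nu_Psi hF, withDensity_apply _ hS, ← lint_wd hρ hF.1 S hS]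
  exact lintegral_mono' (restrict_mono le_rfl h) le_rfl

/-- multiplication of tempered distributions -/
theorem ex_mul {x : Sch →L[ℂ] Completion D} (hρ : Measurable ρ) (hF : Measurable F)
    (h : ∀ f : Sch, c.nu (x f) ≤ wd fun p => ρ p * ‖ft (ev f) p‖ ^ 2)
    (hl : Lg fun p => ‖F p‖ ^ 2 * ρ p) :
    ∃ y : Sch →L[ℂ] Completion D, ∀ f, c.bt.Dom F (x f) ∧ y f = c.bt.Psi F (x f) := by
  obtain ⟨m, C, hC, hb⟩ := hl.bd
  have h1 : ∀ f, c.bt.Dom F (x f) ∧ ‖c.bt.Psi F (x f)‖ ≤ C * ST.sn V ℂ m f := fun f =>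
    dom_of_lintegral hF (mul_nonneg hC (apply_nonneg _ _)) (by
      have m1 := (cont_ft ⟨f, rfl⟩).measurable
      have := lint_wd (ρ := fun p => ρ p * ‖ft (ev f) p‖ ^ 2) (by fun_prop) hF univ .univ
      rw [restrict_univ] at this
      rw [← Api4.sn_eq]
      refine (lintegral_mono' (h f) le_rfl).trans (this.trans_le ?_)
      rw [wd, withDensity_apply _ .univ, restrict_univ]
      simpa only [mul_assoc] using hb f)
  exact ⟨Wk.mkC
    { toFun := fun f => c.bt.Psi F (x f)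
      map_add' := fun f g => by rw [map_add, Psi_add_vec (h1 f).1 (h1 g).1]
      map_smul' := fun a f => by rw [map_smul, Psi_smul_vec a (h1 f).1, RingHom.id_apply] }
    fun f => (h1 f).2, fun f => ⟨(h1 f).1, rfl⟩⟩

lemma psi_sum {ι : Type*} (s : Finset ι) (a : ι → ℂ) {w : ι → Completion D} (hF : Measurable F)
    (h : ∀ i, c.bt.Dom F (w i)) : c.bt.Dom F (∑ i ∈ s, a i • w i) ∧
      c.bt.Psi F (∑ i ∈ s, a i • w i) = ∑ i ∈ s, a i • c.bt.Psi F (w i) := by
  classical
  induction s using Finset.induction_on with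
  | empty => exact ⟨by simpa using Dom.zero_vec hF, by
      simpa using Psi_smul_vec 0 (Dom.zero_vec (C := c.bt.toCalc) hF)⟩
  | insert i s hi ih =>
    simp only [Finset.sum_insert hi]
    exact ⟨((h i).smul_vec _).add_vec ih.1, by
      rw [Psi_add_vec ((h i).smul_vec _) ih.1, ih.2, Psi_smul_vec _ (h i)]⟩

lemma ug_psi {s : ℝ} {L : Ix → V} (hs : 0 < s) (hL : IsLor L) (a : V) (h : c.bt.Dom F v) :
    c.bt.Dom (fun p => F (Kin.du s L p)) (Ug c.Q s L a v) ∧
      Ug c.Q s L a (c.bt.Psi F v) = c.bt.Psi (fun p => F (Kin.du s L p)) (Ug c.Q s L a v) := by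
  simp only [Ug_apply _ hs hL]
  exact (Kin.U_Psi c.bR c.ct hs hL a h).imp id Eq.symm

lemma perp_psi (h : c.bt.Dom F v) (h0 : inner ℂ c.Om v = 0) : inner ℂ c.Om (c.bt.Psi F v) = 0 :=
  tendsto_nhds_unique ((tendsto_const_nhds (x := c.Om)).inner (𝕜 := ℂ) (tendsto_trunc h))
    (tendsto_const_nhds.congr fun n => ((Kin.inner_om_Phi c.bR c.ct (trunc_bd h.1 n) _).trans (by
      rw [show inner ℂ (om c.Q) v = 0 from h0, mul_zero])).symm)

/-- `(l - log μ / 2) ^ i / i!` -/
def pw (l : ℝ) (i : ℕ) (p : V) : ℂ := (((l - Real.log (mu p) / 2) ^ i / i.factorial : ℝ) : ℂ)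

lemma meas_pw (l : ℝ) (i : ℕ) : Measurable (pw l i) := by unfold pw; fun_prop

lemma pw_zero (l : ℝ) : pw l 0 = fun _ => 1 := funext fun p => by simp [pw]

lemma lg_pw (l : ℝ) (i : ℕ) : Lg fun p => ‖pw l i p‖ ^ 2 := by
  simp only [pw, Complex.norm_real, Real.norm_eq_abs, sq_abs, div_eq_mul_inv]
  exact ((((Lg.const l).sub (lg_log.mul (Lg.const _))).pow i).mul (Lg.const _)).pow 2

lemma pw_le (l : ℝ) {i N : ℕ} (h : i ≤ N) (p : V) :
    ‖pw l i p‖ ^ 2 ≤ (1 + |Real.log (mu p) - 2 * l|) ^ (2 * N) := by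
  have h1 : |l - Real.log (mu p) / 2| ≤ 1 + |Real.log (mu p) - 2 * l| := by
    rw [show l - Real.log (mu p) / 2 = -(1 / 2) * (Real.log (mu p) - 2 * l) by ring, abs_mul,
      abs_neg, abs_of_pos one_half_pos]
    linarith [abs_nonneg (Real.log (mu p) - 2 * l)]
  rw [pw, Complex.norm_real, Real.norm_eq_abs, abs_div, abs_pow, mul_comm 2 N, pow_mul]
  refine pow_le_pow_left₀ (div_nonneg (pow_nonneg (abs_nonneg _) _) (abs_nonneg _))
    ((div_le_self (by positivity) ?_).trans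
    ((pow_le_pow_left₀ (abs_nonneg _) h1 i).trans (pow_le_pow_right₀
      (by linarith [abs_nonneg (Real.log (mu p) - 2 * l)]) h))) 2
  rw [Nat.abs_cast]
  exact_mod_cast i.factorial_pos

lemma pw_du {s : ℝ} {L : Ix → V} (hs : 0 < s) (hL : IsLor L) (l : ℝ) (i : ℕ) {p : V}
    (hp : p ∈ Fc) : pw (l + Real.log s) i (Kin.du s L p) = pw l i p := by
  have h1 : 0 < mu p := hp.1
  rw [pw, pw, mu, Kin.du_sq s hL, ← mu, Real.log_mul (by positivity) h1.ne', Real.log_pow]
  congr 3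
  push_cast
  ring

/-- the chain generated by one vector -/
def ch (c : Ctx D) (m : ℕ) (l : ℝ) (v : Completion D) (j : ℕ) : Completion D :=
  if j ≤ m then c.bt.Psi (pw l (m - j)) v else 0

lemma ex0_ch {N m : ℕ} (hm : m ≤ N) (h : ∀ l i, c.bt.Dom (pw l i) v) (t l : ℝ) (j : ℕ) :
    ex0 N t (fun i => ch c m l v (j + i)) = ch c m (t + l) v j := by
  by_cases hj : j ≤ m
  · rw [ex0, ← Finset.sum_subset (Finset.range_mono (show m - j + 1 ≤ N + 1 by omega))
      fun i _ hi => by rw [ch, if_neg (by simp at hi; omega), smul_zero], ch, if_pos hj,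
      Finset.sum_congr rfl fun i hi => by
        rw [ch, if_pos (by simp at hi; omega), ← Psi_smul _ (h _ _)],
      ← Psi_sum _ fun i _ => (h _ _).smul _]
    congr 1
    funext p
    simp only [pw, ← Complex.ofReal_mul, ← Complex.ofReal_sum, Nat.sub_add_eq, binom, add_sub_assoc]
  · rw [ch, if_neg hj]
    refine Finset.sum_eq_zero fun i _ => ?_
    beta_reduce
    rw [ch, if_neg (by omega), smul_zero]

variable {k N : ℕ} {d : ℝ} {Λ : ℕ → (Fin k → Ix) → Sch →L[ℂ] Completion D}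
  {Y : (Fin k → Ix) → Sch →L[ℂ] Completion D}

/-- logarithmic multiplets -/
structure LMu (c : Ctx D) (N : ℕ) (d : ℝ) (Λ : ℕ → (Fin k → Ix) → Sch →L[ℂ] Completion D) :
    Prop where
  perp : ∀ j, Pp c (Λ j)
  cov : ∀ j μ s L a (f g : Sch), 0 < s → IsLor L → (∀ x, g x = f (sim s L a x)) →
    Λ j μ f = ∑ ν : Fin k → Ix, ((s ^ (4 - d) * ∏ i, L (ν i) (μ i) : ℝ) : ℂ) •
      Ug c.Q s L a (ex0 N (Real.log s) fun i => Λ (j + i) ν g)

lemma LMu.can (h : LMu c N d Λ) {j : ℕ} (h0 : ∀ i, j < i → Λ i = 0) : Mu c d (Λ j) :=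
  fun μ s L a f g hs hL e => by
    rw [h.cov j μ s L a f g hs hL e]
    refine Finset.sum_congr rfl fun ν _ => ?_
    rw [ex0_top _ fun i hi => by rw [h0 _ (by omega)]; rfl]
    rfl

lemma LMu.sub {Λ' : ℕ → (Fin k → Ix) → Sch →L[ℂ] Completion D} (h : LMu c N d Λ)
    (h' : LMu c N d Λ') : LMu c N d fun j μ => Λ j μ - Λ' j μ where
  perp j μ f := by
    rw [ContinuousLinearMap.sub_apply, inner_sub_right, h.perp, h'.perp, sub_self]
  cov j μ s L a f g hs hL e := by
    simp only [ContinuousLinearMap.sub_apply, ex0_sub, map_sub, smul_sub, Finset.sum_sub_distrib,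
      ← h.cov j μ s L a f g hs hL e, ← h'.cov j μ s L a f g hs hL e]

lemma Mu.mul (h : Mu c d Y) (h0 : Pp c Y) (hd : k + 2 ≤ d) (l : ℝ) (i : ℕ) (μ : Fin k → Ix) :
    ∃ y : Sch →L[ℂ] Completion D, ∀ f, c.bt.Dom (pw l i) (Y μ f) ∧
      y f = c.bt.Psi (pw l i) (Y μ f) := by
  obtain ⟨C, -, e⟩ := two_gen h h0 (by linarith)
  refine ex_mul (ρ := fun p => C * ((∏ j, nn p (eb μ j)) * mu p ^ (d - 2 - k)))
    (by unfold nn; fun_prop) (meas_pw l i) (fun f => ?_) ((lg_pw l i).mul ((Lg.const C).mul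
      ((Lg.prod _ fun j => lg_nn _).mul (lg_rpow (by linarith)))))
  simpa only [sum_eb μ fun J => Y J f, mul_assoc] using e (eb μ) f

/-- the chain generated by a canonical multiplet -/
lemma Mu.chain (h : Mu c d Y) (h0 : Pp c Y) (hd : k + 2 ≤ d) {m : ℕ} (hm : m ≤ N) :
    ∃ X, LMu c N d X ∧ ∀ j μ f, X j μ f = ch c m 0 (Y μ f) j := by
  choose y hy using h.mul h0 hd
  have e : ∀ j μ f, (if j ≤ m then y 0 (m - j) μ else 0) f = ch c m 0 (Y μ f) j := fun j μ f => by
    unfold ch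
    split_ifs
    exacts [(hy _ _ _ _).2, rfl]
  refine ⟨fun j μ => if j ≤ m then y 0 (m - j) μ else 0, ⟨fun j μ f => ?_,
    fun j μ s L a f g hs hL hg => ?_⟩, e⟩
  · rw [e, ch]
    split_ifs
    exacts [perp_psi (hy _ _ _ _).1 (h0 _ _), inner_zero_right _]
  · simp only [e, ex0_ch hm fun l i => (hy l i _ g).1]
    unfold ch
    split_ifs
    · have u := fun ν => ug_psi hs hL a (hy (Real.log s + 0) (m - j) ν g).1
      simp only [fun ν => (u ν).2]
      rw [← (psi_sum _ _ (u μ).1.1 fun ν => (u ν).1).2, ← h μ s L a f g hs hL hg]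
      exact Psi_congr_ae (hy _ _ _ _).1 (u μ).1.1 ((h.ae h0 (by linarith) μ f).mono fun p hp => by
        rw [add_comm]
        exact (pw_du hs hL 0 _ hp).symm)
    · simp only [map_zero, smul_zero, Finset.sum_const_zero]

/-- **decomposition into canonical multiplets** -/
theorem LMu.dec (hd : k + 2 ≤ d) (n : ℕ) (hn : n ≤ N + 1) :
    ∀ Λ : ℕ → (Fin k → Ix) → Sch →L[ℂ] Completion D, LMu c N d Λ → (∀ j, n ≤ j → Λ j = 0) →
    ∃ Y : ℕ → (Fin k → Ix) → Sch →L[ℂ] Completion D, (∀ m, Mu c d (Y m) ∧ Pp c (Y m)) ∧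
      ∀ j μ f, Λ j μ f = ∑ m ∈ Finset.range n, ch c m 0 (Y m μ f) j := by
  induction n with
  | zero => exact fun Λ _ h0 => ⟨0, fun m => ⟨fun μ s L a f g _ _ _ => by simp,
      fun μ f => inner_zero_right _⟩, fun j μ f => by simp [h0 j (Nat.zero_le j)]⟩
  | succ n ih =>
    intro Λ h h0
    have h1 := h.can (j := n) h0
    obtain ⟨X, hX, eX⟩ := h1.chain (h.perp n) hd (Nat.le_of_succ_le_succ hn)
    obtain ⟨Y, hY, eY⟩ := ih (by omega) _ (h.sub hX) fun j hj => funext fun μ =>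
      ContinuousLinearMap.ext fun f => by
        rw [ContinuousLinearMap.sub_apply, eX, ch]
        rcases hj.eq_or_lt with rfl | hj
        · rw [if_pos le_rfl, Nat.sub_self, pw_zero, Psi_bd (.const 1), c.bt.one]
          exact sub_self _
        · rw [if_neg hj.not_ge, h0 j hj]
          exact sub_self _
    refine ⟨Function.update Y n (Λ n), fun m => ?_, fun j μ f => ?_⟩
    · by_cases hm : m = n
      · rw [hm, Function.update_self]
        exact ⟨h1, h.perp n⟩
      · rw [Function.update_of_ne hm]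
        exact hY m
    · rw [Finset.sum_range_succ, Function.update_self, ← eX, Finset.sum_congr rfl fun m hm => by
        rw [Function.update_of_ne (Finset.mem_range.1 hm).ne], ← eY]
      exact (sub_add_cancel _ _).symm

/-- **the two point function of a logarithmic multiplet** -/
theorem LMu.two (h : LMu c N d Λ) (h0 : ∀ j, N < j → Λ j = 0) (hd : k + 2 ≤ d) : ∃ C : ℝ, 0 ≤ C ∧
    ∀ (l : ℝ) (j : ℕ) (u : Fin k → V) (f : Sch),
      c.nu (ex0 N l fun i => ∑ J, (sy u J : ℂ) • Λ (j + i) J f) ≤ wd fun p =>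
        C * ((∏ j, nn p (u j)) * mu p ^ (d - 2 - k) *
          (1 + |Real.log (mu p) - 2 * l|) ^ (2 * N) * ‖ft (ev f) p‖ ^ 2) := by
  obtain ⟨Y, hY, e⟩ := LMu.dec hd (N + 1) le_rfl Λ h h0
  choose C hC b using fun m => two_gen (hY m).1 (hY m).2 (by linarith)
  have dm := fun m l i μ f => ((hY m).1.mul (hY m).2 hd l i μ).choose_spec f |>.1
  have s := fun m l i (u : Fin k → V) (f : Sch) => psi_sum Finset.univ (fun J => (sy u J : ℂ))
    (meas_pw l i) fun J => dm m l i J f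
  set C' := ∑ m ∈ Finset.range (N + 1), C m
  have hC' : 0 ≤ C' := Finset.sum_nonneg fun m _ => hC m
  refine ⟨(4 ^ (N + 1) : ℝ≥0) * C', by positivity, fun l j u f => ?_⟩
  have m1 := (cont_ft ⟨f, rfl⟩).measurable
  have e1 : (ex0 N l fun i => ∑ J, (sy u J : ℂ) • Λ (j + i) J f) =
      ∑ m : Fin (N + 1), ch c m (l + 0) (∑ J, (sy u J : ℂ) • Y m J f) j := by
    rw [Finset.sum_congr rfl fun (m : Fin (N + 1)) _ => (ex0_ch (Nat.lt_succ_iff.1 m.2)
      (fun l i => (s m l i u f).1) l 0 j).symm]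
    simp only [ex0, e, Finset.sum_range, Finset.smul_sum]
    rw [Finset.sum_comm]
    refine Eq.trans ?_ Finset.sum_comm
    rw [Finset.sum_comm]
    refine Finset.sum_congr rfl fun i _ => ?_
    rw [Finset.sum_comm]
    refine Finset.sum_congr rfl fun m _ => ?_
    unfold ch
    split_ifs
    · rw [(s _ _ _ u f).2, Finset.smul_sum]
    · simp
  simp only [mul_assoc ((4 ^ (N + 1) : ℝ≥0) : ℝ)]
  rw [e1, ← wd_smul]
  refine (nu_sum_le _ fun m => ?_).trans_eq (by rw [Finset.card_univ, Fintype.card_fin])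
  unfold ch
  split_ifs
  · refine (nu_psi_le (b m u f) (by unfold nn; fun_prop) (s _ _ _ u f).1).trans
      (wd_mono fun p hp => ?_)
    have a1 : C m ≤ C' := Finset.single_le_sum (fun m _ => hC m) (Finset.mem_range.2 m.2)
    have a2 := pw_le (l + 0) (show m - j ≤ N by omega) p
    have a3 : 0 ≤ ∏ j, nn p (u j) := Finset.prod_nonneg fun j _ => nn_nonneg _ hp
    have a4 : 0 < mu p := hp.1
    rw [add_zero] at a2 ⊢
    calc _ = C m * ((∏ j, nn p (u j)) * mu p ^ (d - 2 - k) * ‖pw l (m - j) p‖ ^ 2 *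
          ‖ft (ev f) p‖ ^ 2) := by ring
      _ ≤ _ := by gcongr
  · exact c.bt.nu_zero.trans_le (Measure.zero_le _)

end

end Vale.Agent.P352X.ZZ.Two
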